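import Vale.Agent.Lib.H24.Run

/-!
Polynomial time functions between encodable types, with `fun_prop` support.
-/

namespace Vale.Agent.Lib.H24.T

open Function

/-- Types encoded as binary trees. -/
class Enc (α : Type) where
  /-- The encoding. -/
  enc : α → Tr

export Enc (enc)

/-- Encoding of lists. -/
def encList {α : Type} (f : α → Tr) : List α → Tr
  | [] => .nil
  | a :: l => .node (f a) (encList f l)

instance : Enc Tr := ⟨fun t => t⟩
instance : Enc Unit := ⟨fun _ => .nil⟩
instance : Enc Bool := ⟨fun b => cond b (.node .nil .nil) .nil⟩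
instance {α β : Type} [Enc α] [Enc β] : Enc (α × β) := ⟨fun p => .node (enc p.1) (enc p.2)⟩
instance {α : Type} [Enc α] : Enc (List α) := ⟨encList enc⟩
instance : Enc ℕ := ⟨fun n => enc n.bits⟩
instance : Enc ℤ := ⟨fun z => enc (decide (z < 0), z.natAbs)⟩

variable {α β γ δ σ : Type} [Enc α] [Enc β] [Enc γ] [Enc δ] [Enc σ]

/-- The code word. -/
def code (a : α) : List Bool := ser (enc a)

/-- The size of the code word. -/
def sz (a : α) : ℕ := (code a).length

theorem enc_tr (t : Tr) : enc t = t := rfl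
theorem enc_pair (a : α) (b : β) : enc (a, b) = .node (enc a) (enc b) := rfl
theorem enc_nil : enc ([] : List α) = .nil := rfl
theorem enc_cons (a : α) (l : List α) : enc (a :: l) = .node (enc a) (enc l) := rfl
theorem code_bool (b : Bool) : code b = serB b := by cases b <;> rfl
theorem code_pair (a : α) (b : β) : code (a, b) = true :: (code a ++ code b) := rfl
theorem code_cons (a : α) (l : List α) : code (a :: l) = true :: (code a ++ code l) := rfl
theorem code_nil : code ([] : List α) = [false] := rfl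
@[simp] theorem sz_pair (a : α) (b : β) : sz (a, b) = sz a + sz b + 1 := by
  simp [sz, code_pair]
theorem sz_pair' (p : α × β) : sz p = sz p.1 + sz p.2 + 1 := sz_pair p.1 p.2
@[simp] theorem sz_cons (a : α) (l : List α) : sz (a :: l) = sz a + sz l + 1 := by
  simp [sz, code_cons]
@[simp] theorem sz_nil : sz ([] : List α) = 1 := rfl
@[simp] theorem sz_unit (u : Unit) : sz u = 1 := rfl
theorem sz_bool (b : Bool) : sz b ≤ 3 := by cases b <;> decide
theorem sz_pos (a : α) : 0 < sz a := by
  unfold sz code; cases enc a <;> simp [ser]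

theorem length_le_sz (l : List α) : l.length ≤ sz l := by
  induction l with
  | nil => simp
  | cons a l ih => simp; omega

theorem sz_mem {l : List α} {a : α} (h : a ∈ l) : sz a ≤ sz l := by
  induction l with
  | nil => simp at h
  | cons b l ih =>
    rcases List.mem_cons.1 h with rfl | h
    · simp; omega
    · have := ih h; simp; omega

theorem sz_list_le {l : List α} {B : ℕ} (h : ∀ a ∈ l, sz a ≤ B) :
    sz l ≤ l.length * (B + 1) + 1 := by
  induction l with
  | nil => simp
  | cons b l ih =>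
    have h1 := ih fun a ha => h a (List.mem_cons_of_mem _ ha)
    have h2 := h b List.mem_cons_self
    simp only [sz_cons, List.length_cons]; nlinarith

theorem sz_append (l l' : List α) : sz (l ++ l') + 1 = sz l + sz l' := by
  induction l with
  | nil => simp; omega
  | cons a l ih => simp; omega

theorem sz_reverse (l : List α) : sz l.reverse = sz l := by
  induction l with
  | nil => simp
  | cons a l ih => have := sz_append l.reverse [a]; simp at this ⊢; omega

theorem sz_drop (l : List α) (i : ℕ) : sz (l.drop i) ≤ sz l := by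
  have := sz_append (l.take i) (l.drop i)
  have := sz_pos (l.take i)
  simp at *; omega

theorem sz_take (l : List α) (i : ℕ) : sz (l.take i) ≤ sz l := by
  have := sz_append (l.take i) (l.drop i)
  have := sz_pos (l.drop i)
  simp at *; omega

/-- Polynomially bounded quantities. -/
@[fun_prop] def Pb (φ : α → ℕ) : Prop := ∃ k, ∀ a, φ a ≤ (sz a + 2) ^ k

/-- Polynomial time functions. -/
@[fun_prop] def PT (f : α → β) : Prop :=
  ∃ (p : BP) (t : α → ℕ), Pb t ∧ ∀ a, Run p (code a) (code (f a)) (t a)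

theorem Pb.mono {φ ψ : α → ℕ} (h : Pb ψ) (hle : ∀ a, φ a ≤ ψ a) : Pb φ := by
  obtain ⟨k, hk⟩ := h
  exact ⟨k, fun a => (hle a).trans (hk a)⟩

@[fun_prop] theorem Pb.const (c : ℕ) : Pb (fun _ : α => c) :=
  ⟨c, fun a => (Nat.lt_two_pow_self).le.trans (Nat.pow_le_pow_left (by omega) c)⟩

@[fun_prop] theorem Pb.mul {φ ψ : α → ℕ} (h : Pb φ) (h' : Pb ψ) : Pb (fun a => φ a * ψ a) := by
  obtain ⟨k, hk⟩ := h
  obtain ⟨k', hk'⟩ := h'
  exact ⟨k + k', fun a => by rw [pow_add]; exact Nat.mul_le_mul (hk a) (hk' a)⟩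

@[fun_prop] theorem Pb.add {φ ψ : α → ℕ} (h : Pb φ) (h' : Pb ψ) : Pb (fun a => φ a + ψ a) := by
  obtain ⟨k, hk⟩ := h
  obtain ⟨k', hk'⟩ := h'
  refine ⟨k + k' + 1, fun a => ?_⟩
  have h1 : (sz a + 2) ^ k ≤ (sz a + 2) ^ (k + k') := Nat.pow_le_pow_right (by omega) (by omega)
  have h2 : (sz a + 2) ^ k' ≤ (sz a + 2) ^ (k + k') := Nat.pow_le_pow_right (by omega) (by omega)
  have := hk a
  have := hk' a
  rw [pow_succ]
  nlinarith

@[fun_prop] theorem Pb.pow {φ : α → ℕ} (h : Pb φ) (j : ℕ) : Pb (fun a => φ a ^ j) := by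
  obtain ⟨k, hk⟩ := h
  exact ⟨k * j, fun a => by rw [pow_mul]; exact Nat.pow_le_pow_left (hk a) j⟩

theorem Pb.sz_id : Pb (fun a : α => sz a) := ⟨1, fun a => by simp⟩

@[fun_prop] theorem Pb.sz {f : α → β} (h : PT f) : Pb (fun a => sz (f a)) := by
  obtain ⟨p, t, ht, h⟩ := h
  exact (Pb.sz_id.add ((Pb.const p.size).mul (ht.add (Pb.const 1)))).mono fun a => (h a).length

@[fun_prop] theorem Pb.length {f : α → List β} (h : PT f) : Pb (fun a => (f a).length) :=
  (Pb.sz h).mono fun _ => length_le_sz _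

theorem Pb.comp {φ : β → ℕ} {f : α → β} (h : Pb φ) (hf : Pb (fun a => T.sz (f a))) :
    Pb (fun a => φ (f a)) := by
  obtain ⟨k, hk⟩ := h
  exact ((hf.add (Pb.const 2)).pow k).mono fun a => hk _

theorem PT.of_enc {f : α → β} {g : α → γ} (hf : PT f) (h : ∀ a, enc (f a) = enc (g a)) :
    PT g := by
  obtain ⟨p, t, ht, hp⟩ := hf
  exact ⟨p, t, ht, fun a => by have := hp a; unfold code at this ⊢; rwa [h] at this⟩

theorem PT.of_eq {f g : α → β} (hf : PT f) (h : ∀ a, f a = g a) : PT g :=
  hf.of_enc fun a => by rw [h]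

@[fun_prop] theorem PT.id : PT (fun a : α => a) := ⟨.skip, _, Pb.const 0, fun _ => Tri.skip⟩

@[fun_prop] theorem PT.const (b : β) : PT (fun _ : α => b) :=
  ⟨_, _, Pb.sz_id.add (Pb.const 1), fun a => Run.const (code b) (code a)⟩

@[fun_prop] theorem PT.comp {f : β → γ} {g : α → β} (hf : PT f) (hg : PT g) :
    PT (fun a => f (g a)) := by
  have hs := Pb.sz hg
  obtain ⟨p, t, ht, hp⟩ := hf
  obtain ⟨q, t', ht', hq⟩ := hg
  exact ⟨_, _, ht'.add (ht.comp hs), fun a => (hq a).comp (hp (g a))⟩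

@[fun_prop] theorem PT.pair {f : α → β} {g : α → γ} (hf : PT f) (hg : PT g) :
    PT (fun a => (f a, g a)) := by
  have hs := Pb.sz hf
  have hs' := Pb.sz hg
  have h0 := Pb.sz_id (α := α)
  obtain ⟨p, t, ht, hp⟩ := hf
  obtain ⟨q, t', ht', hq⟩ := hg
  exact ⟨_, fun a => t a + t' a + 3 * sz a + 2 * sz (f a) + 2 * sz (g a) + 7, by fun_prop,
    fun a => (hp a).pair (hq a)⟩

theorem PT.left : PT (fun a : α => (enc a).left) :=
  ⟨_, fun a => 2 * sz a + 1, by fun_prop, fun a => Run.left (enc a)⟩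

theorem PT.right : PT (fun a : α => (enc a).right) :=
  ⟨_, fun a => 2 * sz a + 1, by fun_prop, fun a => Run.right (enc a)⟩

theorem PT.isNode : PT (fun a : α => (enc a).isNode) :=
  ⟨_, fun a => sz a + 1, by fun_prop, fun a => by rw [code_bool]; exact Run.isNode (enc a)⟩

@[fun_prop] theorem PT.fst {f : α → β × γ} (hf : PT f) : PT (fun a => (f a).1) :=
  (PT.left.comp hf).of_enc fun _ => rfl

@[fun_prop] theorem PT.snd {f : α → β × γ} (hf : PT f) : PT (fun a => (f a).2) :=
  (PT.right.comp hf).of_enc fun _ => rfl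

theorem PT.elim {c : α → Bool} (hc : PT c) {f : α → β} {g₁ : γ → β} {g₂ : δ → β} (h1 : PT g₁)
    (h2 : PT g₂) {r : α → Tr} (hr : PT r)
    (H1 : ∀ a, c a = true → ∃ x, enc x = r a ∧ f a = g₁ x)
    (H2 : ∀ a, c a = false → ∃ x, enc x = r a ∧ f a = g₂ x) : PT f := by
  have hs := Pb.sz hr
  obtain ⟨p0, t0, ht0, hp0⟩ := hc.pair hr
  obtain ⟨p, t, ⟨k, ht⟩, hp⟩ := h1
  obtain ⟨q, t', ⟨k', ht'⟩, hq⟩ := h2
  refine ⟨.seq p0 (condP 0 p q), fun a => t0 a + ((sz (r a) + 2) ^ k + (sz (r a) + 2) ^ k'),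
    by fun_prop, fun a => (hp0 a).comp ?_⟩
  beta_reduce
  cases hca : c a
  · obtain ⟨x, hx, hf⟩ := H2 a hca
    have e : code (r a) = code x := by unfold code; rw [hx]; rfl
    have e' : sz (r a) = sz x := by unfold sz; rw [e]
    rw [hf, e']
    exact Tri.condF (l := code x) (by rw [← e]; rfl)
      (((hq x).mono ((ht' x).trans (by omega))).cast (by simp) rfl)
  · obtain ⟨x, hx, hf⟩ := H1 a hca
    have e : code (r a) = code x := by unfold code; rw [hx]; rfl
    have e' : sz (r a) = sz x := by unfold sz; rw [e]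
    rw [hf, e']
    exact Tri.condT (l := code x) (by rw [← e]; rfl)
      (((hp x).mono ((ht x).trans (by omega))).cast (by simp) rfl)

theorem PT.toTr {f : α → β} (hf : PT f) : PT (fun a => enc (f a)) := hf.of_enc fun _ => rfl

@[fun_prop] theorem PT.cond {c : α → Bool} {f g : α → β} (hc : PT c) (hf : PT f) (hg : PT g) :
    PT (fun a => cond (c a) (f a) (g a)) :=
  PT.elim hc hf hg PT.id.toTr (fun a h => ⟨a, rfl, by rw [h]; rfl⟩)
    (fun a h => ⟨a, rfl, by rw [h]; rfl⟩)

@[fun_prop] theorem PT.ite {c : α → Prop} [DecidablePred c] {f g : α → β}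
    (hc : PT (fun a => decide (c a))) (hf : PT f) (hg : PT g) :
    PT (fun a => if c a then f a else g a) :=
  (hc.cond hf hg).of_eq fun a => by by_cases h : c a <;> simp [h]

@[fun_prop] theorem PT.cons {f : α → β} {g : α → List β} (hf : PT f) (hg : PT g) :
    PT (fun a => f a :: g a) := (hf.pair hg).of_enc fun _ => rfl

@[fun_prop] theorem PT.not {f : α → Bool} (hf : PT f) : PT (fun a => !f a) :=
  (hf.cond (PT.const false) (PT.const true)).of_eq fun a => by cases f a <;> rfl

@[fun_prop] theorem PT.and {f g : α → Bool} (hf : PT f) (hg : PT g) : PT (fun a => f a && g a) :=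
  (hf.cond hg (PT.const false)).of_eq fun a => by cases f a <;> rfl

@[fun_prop] theorem PT.or {f g : α → Bool} (hf : PT f) (hg : PT g) : PT (fun a => f a || g a) :=
  (hf.cond (PT.const true) hg).of_eq fun a => by cases f a <;> rfl

@[fun_prop] theorem PT.decide_true {f : α → Bool} (hf : PT f) :
    PT (fun a => decide (f a = true)) := hf.of_eq fun a => by simp

@[fun_prop] theorem PT.isEmpty {f : α → List β} (hf : PT f) : PT (fun a => (f a).isEmpty) :=
  (PT.isNode.comp hf).not.of_eq fun a => by cases f a <;> rfl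

@[fun_prop] theorem PT.tail {f : α → List β} (hf : PT f) : PT (fun a => (f a).tail) :=
  (PT.right.comp hf).of_enc fun a => by cases f a <;> rfl

@[fun_prop] theorem PT.headD {f : α → List β} {d : α → β} (hf : PT f) (hd : PT d) :
    PT (fun a => (f a).headD (d a)) :=
  (hf.isEmpty.cond (g := fun a => (enc (f a)).left) (f := fun a => enc (d a))
    (hd.of_enc fun _ => rfl) (PT.left.comp hf)).of_enc fun a => by cases f a <;> rfl

/-- Case distinction on a list. -/
def lcase {β γ : Type} (l : List β) (x : γ) (g : β → List β → γ) : γ :=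
  match l with
  | [] => x
  | b :: t => g b t

@[fun_prop] theorem PT.lcase {l : α → List β} {x : α → γ} {g : α → β → List β → γ} (hl : PT l)
    (hx : PT x) (hg : PT (fun p : α × β × List β => g p.1 p.2.1 p.2.2)) :
    PT (fun a => lcase (l a) (x a) (g a)) :=
  PT.elim hl.isEmpty (g₁ := fun p : α × List β => x p.1) (by fun_prop) hg (PT.id.pair hl).toTr
    (fun a h => ⟨(a, l a), rfl, by rw [List.isEmpty_iff.1 h]; rfl⟩)
    (fun a h => by
      rcases hl : l a with _ | ⟨b, t⟩
      · simp [hl] at h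
      · exact ⟨(a, b, t), rfl, rfl⟩)

instance : Enc (α ⊕ β) := ⟨Sum.elim (fun a => enc (false, a)) (fun b => enc (true, b))⟩

@[fun_prop] theorem PT.inl {f : α → β} (hf : PT f) : PT (fun a => (Sum.inl (f a) : β ⊕ γ)) :=
  ((PT.const false).pair hf).of_enc fun _ => rfl

@[fun_prop] theorem PT.inr {f : α → γ} (hf : PT f) : PT (fun a => (Sum.inr (f a) : β ⊕ γ)) :=
  ((PT.const true).pair hf).of_enc fun _ => rfl

@[fun_prop] theorem PT.sumElim {s : α → β ⊕ γ} {f : α → β → δ} {g : α → γ → δ} (hs : PT s)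
    (hf : PT (fun p : α × β => f p.1 p.2)) (hg : PT (fun p : α × γ => g p.1 p.2)) :
    PT (fun a => Sum.elim (f a) (g a) (s a)) :=
  PT.elim (c := fun a => (s a).isRight)
    ((PT.left.comp hs).of_enc fun a => by cases s a <;> rfl) hg hf
    (PT.id.pair (PT.right.comp hs)).toTr
    (fun a h => by
      rcases hl : s a with b | c
      · simp [hl] at h
      · exact ⟨(a, c), rfl, rfl⟩)
    (fun a h => by
      rcases hl : s a with b | c
      · exact ⟨(a, b), rfl, rfl⟩
      · simp [hl] at h)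

theorem sz_inl (a : α) : sz (Sum.inl a : α ⊕ β) = sz a + 2 := by
  show sz (false, a) = _
  rw [sz_pair]; show 1 + _ + _ = _; omega

theorem sz_inr (b : β) : sz (Sum.inr b : α ⊕ β) = sz b + 4 := by
  show sz (true, b) = _
  rw [sz_pair]; show 3 + _ + _ = _; omega

/-- The general loop, with explicit bounds. -/
theorem PT.loop_run {f : σ → Bool × σ} (hf : PT f) : ∃ (p : BP) (k : ℕ),
    ∀ (s : ℕ → σ) (N B : ℕ), (∀ i < N, f (s i) = (decide (i + 1 < N), s (i + 1))) →
      (∀ i ≤ N, sz (s i) ≤ B) →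
      Run p (code (decide (0 < N), s 0)) (code (s N)) (N * ((B + 2) ^ k + 1) + 4 * B + 14) := by
  obtain ⟨p, t, ⟨k, hk⟩, hp⟩ := hf
  refine ⟨loopP p, k, fun s N B h1 h2 => ?_⟩
  have := Run.loop (p := p) ((B + 2) ^ k) (fun i => code (s i)) N (fun i hi => by
    have := hp (s i)
    rw [h1 i hi, code_pair, code_bool] at this
    exact this.mono ((hk _).trans (Nat.pow_le_pow_left (by have := h2 i hi.le; omega) k)))
  rw [code_pair, code_bool]
  refine this.mono ?_
  have := h2 0 (by omega)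
  have := h2 N le_rfl
  simp only [sz] at *
  omega

theorem PT.foldl_run {h : α → β → γ → β} (hh : PT (fun p : α × β × γ => h p.1 p.2.1 p.2.2)) :
    ∃ (p : BP) (k : ℕ), ∀ (a : α) (b : β) (l : List γ) (B : ℕ),
      (∀ i, sz ((l.take i).foldl (h a) b) ≤ B) →
      Run p (code (a, b, l)) (code (l.foldl (h a) b)) ((sz a + B + sz l + 2) ^ k) := by
  have h1 : PT (fun s : α × β × List γ => (!s.2.2.tail.isEmpty,
      (s.1, T.lcase s.2.2 s.2.1 (fun x _ => h s.1 s.2.1 x), s.2.2.tail))) := by
    have : PT (fun p : (α × β × List γ) × γ × List γ => h p.1.1 p.1.2.1 p.2.1) :=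
      hh.comp (g := fun p : (α × β × List γ) × γ × List γ => (p.1.1, p.1.2.1, p.2.1))
        (by fun_prop)
    have : PT (fun s : α × β × List γ => T.lcase s.2.2 s.2.1 (fun x _ => h s.1 s.2.1 x)) :=
      PT.lcase (by fun_prop) (by fun_prop) this
    fun_prop
  obtain ⟨p, k, hp⟩ := h1.loop_run
  obtain ⟨p0, t0, ⟨k0, ht0⟩, hp0⟩ : PT (fun s : α × β × List γ => (!s.2.2.isEmpty, s)) := by
    fun_prop
  obtain ⟨p2, t2, ⟨k2, ht2⟩, hp2⟩ : PT (fun s : α × β × List γ => s.2.1) := by fun_prop
  refine ⟨.seq p0 (.seq p p2), 2 * (k0 + k + k2) + 7, fun a b l B hB => ?_⟩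
  have e1 := hp (fun i => (a, (l.take i).foldl (h a) b, l.drop i)) l.length
    (sz a + B + sz l + 2) (fun i hi => by
      simp only [Prod.mk.injEq, List.tail_drop, true_and, and_true]
      refine ⟨?_, ?_⟩
      · by_cases h : i + 1 < l.length
        · simp [h]
        · simp [h]; omega
      · rw [List.take_succ_eq_append_getElem hi, List.foldl_append, List.drop_eq_getElem_cons hi]
        rfl)
    (fun i _ => by have := hB i; have := sz_drop l i; simp only [sz_pair]; omega)
  have e0 := hp0 (a, b, l)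
  have e2 := hp2 (a, (l.take l.length).foldl (h a) b, l.drop l.length)
  have e3 : (!l.isEmpty) = decide (0 < l.length) := by cases l <;> simp
  simp only [e3] at e0
  simp only [List.take_zero, List.foldl_nil, List.drop_zero] at e1
  have e4 := e0.comp (e1.comp e2)
  rw [List.take_length] at e4
  refine e4.mono ?_
  have b0 := ht0 (a, b, l)
  have b2 := ht2 (a, l.foldl (h a) b, l.drop l.length)
  have hb := hB 0
  have hb' := hB l.length
  have hl := length_le_sz l
  have hl' := sz_pos l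
  have ha := sz_pos a
  simp only [List.take_zero, List.foldl_nil, List.take_length, List.drop_length, sz_pair,
    sz_nil] at hb hb' b0 b2 ⊢
  generalize hX : sz a + B + sz l + 2 = X at *
  have hX4 : 4 ≤ X := by omega
  have c0 : ∀ y j, y ≤ X + 2 → j ≤ k0 + k + k2 → y ^ j ≤ X ^ (2 * (k0 + k + k2)) := by
    intro y j hy hj
    calc y ^ j ≤ (X ^ 2) ^ j := Nat.pow_le_pow_left (by nlinarith) j
      _ ≤ (X ^ 2) ^ (k0 + k + k2) := Nat.pow_le_pow_right (by positivity) hj
      _ = _ := by rw [← pow_mul]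
  have c1 := c0 (sz a + (sz b + sz l + 1) + 1 + 2) k0 (by omega) (by omega)
  have c2 := c0 (sz a + (sz (l.foldl (h a) b) + 1 + 1) + 1 + 2) k2 (by omega) (by omega)
  have c3 := c0 (X + 2) k (by omega) (by omega)
  have c4 : 1 ≤ X ^ (2 * (k0 + k + k2)) := Nat.one_le_pow _ _ (by omega)
  rw [pow_add]
  generalize X ^ (2 * (k0 + k + k2)) = Y at *
  have c5 : l.length * ((X + 2) ^ k + 1) ≤ X * (Y + 1) := Nat.mul_le_mul (by omega) (by omega)
  have c6 : X * 4 ^ 6 ≤ X ^ 7 := by
    rw [pow_succ' X 6]; exact Nat.mul_le_mul_left _ (Nat.pow_le_pow_left hX4 6)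
  have c7 : Y * (X * 4 ^ 6) ≤ Y * X ^ 7 := Nat.mul_le_mul_left _ c6
  nlinarith

theorem PT.foldl {h : α → β → γ → β} {l : α → List γ} {b : α → β}
    (hh : PT (fun p : α × β × γ => h p.1 p.2.1 p.2.2)) (hl : PT l) (hb : PT b)
    (φ : α → ℕ) (hφ : Pb φ) (hB : ∀ a i, sz (((l a).take i).foldl (h a) (b a)) ≤ φ a) :
    PT (fun a => (l a).foldl (h a) (b a)) := by
  obtain ⟨p, k, hp⟩ := hh.foldl_run
  obtain ⟨p0, t0, ht0, hp0⟩ : PT (fun a => (a, b a, l a)) := by fun_prop
  exact ⟨.seq p0 p, fun a => t0 a + (sz a + φ a + sz (l a) + 2) ^ k, by fun_prop,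
    fun a => (hp0 a).comp (hp a (b a) (l a) (φ a) (hB a))⟩

theorem PT.foldl_add {h : α → β → γ → β} {l : α → List γ} {b : α → β}
    (hh : PT (fun p : α × β × γ => h p.1 p.2.1 p.2.2)) (hl : PT l) (hb : PT b)
    (ψ : α × γ → ℕ) (hψ : Pb ψ) (hB : ∀ a y x, sz (h a y x) ≤ sz y + ψ (a, x)) :
    PT (fun a => (l a).foldl (h a) (b a)) := by
  obtain ⟨k, hk⟩ := hψ
  refine PT.foldl hh hl hb
    (fun a => sz (b a) + (l a).length * (sz a + sz (l a) + 3) ^ k) (by fun_prop) (fun a i => ?_)
  have key : ∀ (m : List γ) (y : β), (∀ x ∈ m, x ∈ l a) →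
      sz (m.foldl (h a) y) ≤ sz y + m.length * (sz a + sz (l a) + 3) ^ k := by
    intro m
    induction m with
    | nil => intro y _; simp
    | cons x m ih =>
      intro y hm
      have h1 := ih (h a y x) fun x hx => hm x (List.mem_cons_of_mem _ hx)
      have h2 := hB a y x
      have h3 := hk (a, x)
      have h4 := sz_mem (hm x List.mem_cons_self)
      have h5 : (sz (a, x) + 2) ^ k ≤ (sz a + sz (l a) + 3) ^ k :=
        Nat.pow_le_pow_left (by simp; omega) k
      simp only [List.foldl_cons, List.length_cons]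
      nlinarith
  refine (key _ _ fun x hx => List.mem_of_mem_take hx).trans ?_
  gcongr
  simp

end Vale.Agent.Lib.H24.T
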