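import Vale.Agent.Lib.H24.PT

/-!
Polynomial time list operations.
-/

namespace Vale.Agent.Lib.H24.T

variable {α β γ δ σ : Type} [Enc α] [Enc β] [Enc γ] [Enc δ] [Enc σ]

theorem PT.reverseAux {f g : α → List β} (hf : PT f) (hg : PT g) :
    PT (fun a => (f a).reverse ++ g a) := by
  refine (PT.foldl_add (h := fun _ (y : List β) (x : β) => x :: y) (by fun_prop) hf hg
    (fun p => sz p.2 + 1) (by fun_prop) (fun a y x => by simp; omega)).of_eq fun a => ?_
  generalize f a = l
  generalize g a = m
  induction l generalizing m with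
  | nil => rfl
  | cons x l ih => simp

@[fun_prop] theorem PT.reverse {f : α → List β} (hf : PT f) : PT (fun a => (f a).reverse) :=
  (hf.reverseAux (PT.const [])).of_eq fun a => by simp

@[fun_prop] theorem PT.append {f g : α → List β} (hf : PT f) (hg : PT g) :
    PT (fun a => f a ++ g a) :=
  (hf.reverse.reverseAux hg).of_eq fun a => by simp

@[fun_prop] theorem PT.flatMap {l : α → List β} {g : α → β → List γ} (hl : PT l)
    (hg : PT (fun p : α × β => g p.1 p.2)) : PT (fun a => (l a).flatMap (g a)) := by
  have h1 : PT (fun p : α × List γ × β => g p.1 p.2.2) :=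
    hg.comp (g := fun p : α × List γ × β => (p.1, p.2.2)) (by fun_prop)
  refine (PT.foldl_add (h := fun a (y : List γ) (x : β) => y ++ g a x) (by fun_prop) hl
    (PT.const []) (fun p => sz (g p.1 p.2)) (by fun_prop)
    (fun a y x => by have := sz_append y (g a x); simp only; omega)).of_eq fun a => ?_
  have : ∀ (l : List β) (m : List γ),
      l.foldl (fun y x => y ++ g a x) m = m ++ l.flatMap (g a) := by
    intro l
    induction l with
    | nil => simp
    | cons x l ih => simp [ih]
  simp [this]

@[fun_prop] theorem PT.map {l : α → List β} {g : α → β → γ} (hl : PT l)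
    (hg : PT (fun p : α × β => g p.1 p.2)) : PT (fun a => (l a).map (g a)) :=
  (PT.flatMap (g := fun a b => [g a b]) hl (by fun_prop)).of_eq fun a => by
    induction l a <;> simp_all

@[fun_prop] theorem PT.filter {l : α → List β} {g : α → β → Bool} (hl : PT l)
    (hg : PT (fun p : α × β => g p.1 p.2)) : PT (fun a => (l a).filter (g a)) :=
  (PT.flatMap (g := fun a b => _root_.cond (g a b) [b] []) hl (by fun_prop)).of_eq fun a => by
    induction l a with
    | nil => rfl
    | cons x m ih => cases h : g a x <;> simp_all

@[fun_prop] theorem PT.any {l : α → List β} {g : α → β → Bool} (hl : PT l)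
    (hg : PT (fun p : α × β => g p.1 p.2)) : PT (fun a => (l a).any (g a)) :=
  (PT.filter hl hg).isEmpty.not.of_eq fun a => by
    induction l a with
    | nil => rfl
    | cons x m ih => cases h : g a x <;> simp_all

@[fun_prop] theorem PT.all {l : α → List β} {g : α → β → Bool} (hl : PT l)
    (hg : PT (fun p : α × β => g p.1 p.2)) : PT (fun a => (l a).all (g a)) :=
  (PT.any (g := fun a b => !g a b) hl hg.not).not.of_eq fun a => by
    induction l a with
    | nil => rfl
    | cons x m ih => cases h : g a x <;> simp_all

@[fun_prop] theorem PT.zip {f : α → List β} {g : α → List γ} (hf : PT f) (hg : PT g) :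
    PT (fun a => (f a).zip (g a)) := by
  have h := PT.foldl_add
    (h := fun _ (y : List γ × List (β × γ)) (x : β) =>
      T.lcase y.1 y (fun c t => (t, (x, c) :: y.2)))
    (by fun_prop) hf (hg.pair (PT.const [])) (fun p => sz p.2 + 1) (by fun_prop)
    (by
      rintro a ⟨_ | ⟨c, t⟩, y⟩ x
      · simp [T.lcase]
      · simp [T.lcase]; omega)
  refine h.snd.reverse.of_eq fun a => ?_
  have : ∀ (l : List β) (m : List γ) (acc : List (β × γ)),
      (l.foldl (fun (y : List γ × List (β × γ)) (x : β) =>
        T.lcase y.1 y (fun c t => (t, (x, c) :: y.2))) (m, acc)).2.reverse =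
        acc.reverse ++ l.zip m := by
    intro l
    induction l with
    | nil => simp
    | cons x l ih =>
      rintro (_ | ⟨c, t⟩) acc
      · simpa [T.lcase] using ih [] acc
      · simpa [T.lcase] using ih t ((x, c) :: acc)
  simp [this]

@[fun_prop] theorem PT.zipWith {f : α → List β} {g : α → List γ} {h : α → β → γ → δ} (hf : PT f)
    (hg : PT g) (hh : PT (fun p : α × β × γ => h p.1 p.2.1 p.2.2)) :
    PT (fun a => List.zipWith (h a) (f a) (g a)) :=
  (PT.map (g := fun a (x : β × γ) => h a x.1 x.2) (hf.zip hg) hh).of_eq fun a => by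
    rw [List.zip_eq_zipWith, List.map_zipWith]

/-- Iteration along a list, with a size bound. -/
theorem PT.iterate {h : α → β → β} {l : α → List γ} {b : α → β}
    (hh : PT (fun p : α × β => h p.1 p.2)) (hl : PT l) (hb : PT b)
    (φ : α → ℕ) (hφ : Pb φ) (hB : ∀ a, ∀ i ≤ (l a).length, sz ((h a)^[i] (b a)) ≤ φ a) :
    PT (fun a => (h a)^[(l a).length] (b a)) := by
  have key : ∀ (a : α) (m : List γ) (y : β),
      m.foldl (fun y _ => h a y) y = (h a)^[m.length] y := by
    intro a m
    induction m with
    | nil => intro y; rfl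
    | cons x m ih => intro y; simp [ih]
  refine (PT.foldl (h := fun a y _ => h a y)
    (hh.comp (g := fun p : α × β × γ => (p.1, p.2.1)) (by fun_prop)) hl hb φ hφ
    (fun a i => ?_)).of_eq fun a => key _ _ _
  rw [key]
  exact hB a _ (by simp)

end Vale.Agent.Lib.H24.T
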