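import Vale.Agent.Lib.H24.PTList

/-!
Polynomial time binary arithmetic.
-/

namespace Vale.Agent.Lib.H24.T

variable {α β γ δ σ : Type} [Enc α] [Enc β] [Enc γ] [Enc δ] [Enc σ]

theorem sz_nat (n : ℕ) : sz n = sz n.bits := rfl

theorem lt_two_pow_sz (n : ℕ) : n < 2 ^ sz n := by
  have h1 := Nat.lt_size_self n
  have h2 := length_le_sz n.bits
  rw [Nat.size_eq_bits_len] at h2
  exact h1.trans_le (Nat.pow_le_pow_right (by omega) h2)

theorem sz_nat_le {n k : ℕ} (h : n < 2 ^ k) : sz n ≤ 4 * k + 1 := by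
  have h1 := sz_list_le (l := n.bits) (B := 3) fun a _ => sz_bool a
  rw [Nat.size_eq_bits_len] at h1
  have := Nat.size_le.2 h
  rw [sz_nat]; omega

theorem sz_nat_mono {m n : ℕ} (h : m ≤ n) : sz m ≤ 4 * sz n + 1 :=
  sz_nat_le (h.trans_lt (lt_two_pow_sz n))

@[fun_prop] theorem PT.bits {f : α → ℕ} (hf : PT f) : PT (fun a => (f a).bits) :=
  hf.of_enc fun _ => rfl

@[fun_prop] theorem PT.eq_zero {f : α → ℕ} (hf : PT f) : PT (fun a => decide (f a = 0)) :=
  hf.bits.isEmpty.of_eq fun a => by
    induction f a using Nat.binaryRec' with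
    | zero => rfl
    | bit b n h _ =>
      rw [Nat.bits_append_bit n b h]
      simpa [Nat.bit_eq_zero_iff] using fun h0 => h h0

@[fun_prop] theorem PT.bit {b : α → Bool} {f : α → ℕ} (hb : PT b) (hf : PT f) :
    PT (fun a => Nat.bit (b a) (f a)) :=
  (PT.cond (hb.or hf.eq_zero.not) (hb.cons hf.bits) (PT.const [])).of_enc fun a => by
    by_cases h : f a = 0 → b a = true
    · have : (b a || !decide (f a = 0)) = true := by
        by_cases h0 : f a = 0 <;> simp_all
      rw [this, cond_true, ← Nat.bits_append_bit _ _ h]; rfl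
    · push Not at h
      simp [h.1, h.2]; rfl

@[fun_prop] theorem PT.div2 {f : α → ℕ} (hf : PT f) : PT (fun a => f a / 2) :=
  hf.bits.tail.of_enc fun a => by
    rw [← Nat.div2_bits_eq_tail, Nat.div2_val]; rfl

@[fun_prop] theorem PT.div8 {f : α → ℕ} (hf : PT f) : PT (fun a => f a / 8) :=
  hf.div2.div2.div2.of_eq fun a => by omega

/-- The number with the given further binary digits. -/
def bval (L : List Bool) (m : ℕ) : ℕ := L.foldl (fun m b => Nat.bit b m) m

theorem bval_bits (n : ℕ) : bval n.bits.reverse 0 = n := by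
  induction n using Nat.binaryRec' with
  | zero => rfl
  | bit b n h ih =>
    rw [Nat.bits_append_bit n b h, List.reverse_cons, bval, List.foldl_append]
    exact congrArg (Nat.bit b) ih

theorem le_bval (L : List Bool) (m : ℕ) : m ≤ bval L m := by
  induction L generalizing m with
  | nil => rfl
  | cons b L ih => exact le_trans (by rw [Nat.bit_val]; omega) (ih (Nat.bit b m))

theorem bval_take (L : List Bool) (m i : ℕ) : bval (L.take i) m ≤ bval L m := by
  conv_rhs => rw [← List.take_append_drop i L, bval, List.foldl_append]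
  exact le_bval _ _

theorem bval_pad (L M : List Bool) : bval (L ++ M.map fun _ => false).reverse 0 = bval L.reverse 0 := by
  rw [List.reverse_append, bval, List.foldl_append]
  congr 1
  induction M with
  | nil => rfl
  | cons b M ih => simp only [List.map_cons, List.reverse_cons, List.foldl_append, ih]; rfl

theorem PT.binRec {φ : α → ℕ → β} {ψ : α → β → Bool → β} {n : α → ℕ}
    (hψ : PT (fun p : α × β × Bool => ψ p.1 p.2.1 p.2.2)) (h0 : PT (fun a => φ a 0)) (hn : PT n)
    (hrec : ∀ a b m, φ a (Nat.bit b m) = ψ a (φ a m) b) (B : α → ℕ) (hB : Pb B)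
    (hsz : ∀ a, ∀ m ≤ n a, sz (φ a m) ≤ B a) : PT (fun a => φ a (n a)) := by
  have key : ∀ a (L : List Bool) m, L.foldl (ψ a) (φ a m) = φ a (bval L m) := by
    intro a L
    induction L with
    | nil => intro m; rfl
    | cons b L ih => intro m; rw [List.foldl_cons, ← hrec, ih]; rfl
  refine (PT.foldl hψ hn.bits.reverse h0 B hB fun a i => ?_).of_eq fun a => ?_
  · rw [key]; exact hsz a _ ((bval_take _ _ _).trans (bval_bits _).le)
  · rw [key, bval_bits]

theorem PT.binRec2 {φ : ℕ → ℕ → β} {ψ : β → Bool × Bool → β}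
    (hψ : PT (fun p : β × Bool × Bool => ψ p.1 p.2))
    (hrec : ∀ x y m n, φ (Nat.bit x m) (Nat.bit y n) = ψ (φ m n) (x, y)) (B : ℕ × ℕ → ℕ)
    (hB : Pb B) (hsz : ∀ m n, ∀ m' ≤ m, ∀ n' ≤ n, sz (φ m' n') ≤ B (m, n)) :
    PT (fun p : ℕ × ℕ => φ p.1 p.2) := by
  have key : ∀ (L : List (Bool × Bool)) m n, L.foldl ψ (φ m n) =
      φ (bval (L.map Prod.fst) m) (bval (L.map Prod.snd) n) := by
    intro L
    induction L with
    | nil => intro m n; rfl
    | cons b L ih => intro m n; rw [List.foldl_cons, ← hrec, ih]; rfl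
  have e1 : ∀ p : ℕ × ℕ, ((p.1.bits ++ p.2.bits.map fun _ => false).zip
      (p.2.bits ++ p.1.bits.map fun _ => false)).reverse.map Prod.fst =
      (p.1.bits ++ p.2.bits.map fun _ => false).reverse := fun p => by
    rw [List.map_reverse, List.map_fst_zip (by simp; omega)]
  have e2 : ∀ p : ℕ × ℕ, ((p.1.bits ++ p.2.bits.map fun _ => false).zip
      (p.2.bits ++ p.1.bits.map fun _ => false)).reverse.map Prod.snd =
      (p.2.bits ++ p.1.bits.map fun _ => false).reverse := fun p => by
    rw [List.map_reverse, List.map_snd_zip (by simp; omega)]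
  refine (PT.foldl (h := fun _ : ℕ × ℕ => ψ)
    (l := fun p => ((p.1.bits ++ p.2.bits.map fun _ => false).zip
      (p.2.bits ++ p.1.bits.map fun _ => false)).reverse)
    (hψ.comp (g := fun p : (ℕ × ℕ) × β × Bool × Bool => p.2) (by fun_prop)) (by fun_prop)
    (PT.const (φ 0 0)) B hB fun a i => ?_).of_eq fun a => ?_
  · rw [key, List.map_take, List.map_take, e1, e2]
    exact hsz a.1 a.2 _ ((bval_take _ _ _).trans (by rw [bval_pad, bval_bits])) _
      ((bval_take _ _ _).trans (by rw [bval_pad, bval_bits]))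
  · rw [key, e1, e2, bval_pad, bval_pad, bval_bits, bval_bits]

theorem PT.succ {f : α → ℕ} (hf : PT f) : PT (fun a => f a + 1) := by
  refine (PT.binRec (φ := fun _ m => (m, m + 1))
    (ψ := fun _ y b => (Nat.bit b y.1, _root_.cond b (Nat.bit false y.2) (Nat.bit true y.1)))
    (by fun_prop) (by fun_prop) hf (fun a b m => ?_) (fun a => 8 * sz (f a) + 7) (by fun_prop)
    (fun a m hm => ?_)).snd
  · cases b <;> simp [Nat.bit_val]; omega
  · have h1 := lt_two_pow_sz (f a)
    have h2 := sz_nat_le (n := m) (k := sz (f a)) (by omega)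
    have h3 := sz_nat_le (n := m + 1) (k := sz (f a) + 1) (by omega)
    simp only [sz_pair]; omega

theorem PT.pred {f : α → ℕ} (hf : PT f) : PT (fun a => f a - 1) := by
  refine (PT.binRec (φ := fun _ m => (m, m - 1))
    (ψ := fun _ y b => (Nat.bit b y.1, _root_.cond b (Nat.bit false y.1)
      (if y.1 = 0 then 0 else Nat.bit true y.2)))
    (by fun_prop) (by fun_prop) hf (fun a b m => ?_) (fun a => 8 * sz (f a) + 7) (by fun_prop)
    (fun a m hm => ?_)).snd
  · cases b <;> simp [Nat.bit_val]; split_ifs <;> omega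
  · have h2 := sz_nat_mono (n := f a) (m := m) (by omega)
    have h3 := sz_nat_mono (n := f a) (m := m - 1) (by omega)
    simp only [sz_pair]; omega

@[fun_prop] theorem PT.add {f g : α → ℕ} (hf : PT f) (hg : PT g) : PT (fun a => f a + g a) := by
  have h1 : PT (fun p : ℕ × Bool × Bool => Nat.bit p.2.1 p.1 + 1) := PT.succ (by fun_prop)
  refine (PT.binRec2 (φ := fun m n => m + n)
    (ψ := fun y b => _root_.cond b.2 (Nat.bit b.1 y + 1) (Nat.bit b.1 y))
    (by fun_prop) (fun x y m n => ?_) (fun a => 4 * (sz a.1 + sz a.2) + 1) (by fun_prop)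
    (fun m n m' hm n' hn => sz_nat_le ?_)).comp (hf.pair hg)
  · cases x <;> cases y <;> simp [Nat.bit_val] <;> omega
  · have h1 := lt_two_pow_sz m
    have h2 := lt_two_pow_sz n
    have h3 : 2 ≤ 2 ^ sz m := Nat.le_self_pow (sz_pos m).ne' 2
    have h4 : 2 ≤ 2 ^ sz n := Nat.le_self_pow (sz_pos n).ne' 2
    simp only [pow_add]; nlinarith

theorem PT.ltSub : PT (fun p : ℕ × ℕ => (decide (p.1 < p.2), p.1 - p.2)) := by
  have h1 : PT (fun p : (Bool × ℕ) × Bool × Bool => p.1.2 - 1) := PT.pred (by fun_prop)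
  refine PT.binRec2 (φ := fun m n => (decide (m < n), m - n))
    (ψ := fun y b => _root_.cond y.1 (true, 0) (_root_.cond (b.1 || !b.2)
      (false, Nat.bit (b.1 && !b.2) y.2)
      (if y.2 = 0 then (true, 0) else (false, Nat.bit true (y.2 - 1)))))
    (by fun_prop) (fun x y m n => ?_) (fun a => 4 * sz a.1 + 5) (by fun_prop)
    (fun m n m' hm n' hn => ?_)
  · by_cases h : m < n <;> cases x <;> cases y <;> simp [Nat.bit_val, h] <;>
      first | omega | (split_ifs <;> simp <;> omega)
  · have := sz_nat_mono (n := m) (m := m' - n') (by omega)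
    have := sz_bool (decide (m' < n'))
    simp only [sz_pair]; omega

@[fun_prop] theorem PT.sub {f g : α → ℕ} (hf : PT f) (hg : PT g) : PT (fun a => f a - g a) :=
  (PT.ltSub.comp (hf.pair hg)).snd

@[fun_prop] theorem PT.lt {f g : α → ℕ} (hf : PT f) (hg : PT g) :
    PT (fun a => decide (f a < g a)) := (PT.ltSub.comp (hf.pair hg)).fst

@[fun_prop] theorem PT.le {f g : α → ℕ} (hf : PT f) (hg : PT g) :
    PT (fun a => decide (f a ≤ g a)) :=
  (hg.lt hf).not.of_eq fun a => by by_cases h : f a ≤ g a <;> simp [h]; omega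

@[fun_prop] theorem PT.eq {f g : α → ℕ} (hf : PT f) (hg : PT g) :
    PT (fun a => decide (f a = g a)) :=
  ((hg.le hf).and (hf.le hg)).of_eq fun a => by by_cases h : f a = g a <;> simp [h]; omega

@[fun_prop] theorem PT.mul {f g : α → ℕ} (hf : PT f) (hg : PT g) : PT (fun a => f a * g a) := by
  have h1 : PT (fun p : α × ℕ × Bool => g p.1) := by fun_prop
  refine PT.binRec (φ := fun a m => m * g a)
    (ψ := fun a y b => _root_.cond b (Nat.bit false y + g a) (Nat.bit false y))
    (by fun_prop) (by simpa using PT.const 0) hf (fun a b m => ?_)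
    (fun a => 4 * (sz (f a) + sz (g a)) + 1) (by fun_prop) (fun a m hm => sz_nat_le ?_)
  · cases b <;> simp [Nat.bit_val] <;> ring
  · have h1 := lt_two_pow_sz (f a)
    have h2 := lt_two_pow_sz (g a)
    simp only [pow_add]; nlinarith

@[fun_prop] theorem PT.length {f : α → List β} (hf : PT f) : PT (fun a => (f a).length) := by
  refine (PT.iterate (h := fun _ (m : ℕ) => m + 1) (by fun_prop) hf (PT.const 0)
    (fun a => 4 * (f a).length + 1) (by fun_prop) (fun a i hi => sz_nat_le ?_)).of_eq
    fun a => by simp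
  simp only [add_right_iterate, smul_eq_mul, mul_one, zero_add]
  exact Nat.lt_two_pow_self.trans_le (Nat.pow_le_pow_right (by omega) hi)

@[fun_prop] theorem PT.drop {f : α → List β} {n : α → ℕ} (hn : PT n) (hf : PT f) :
    PT (fun a => (f a).drop (n a)) := by
  have key : ∀ (m : ℕ) (l : List β) (i : ℕ),
      (fun y : ℕ × List β => if y.1 = 0 then y else (y.1 - 1, y.2.tail))^[i] (m, l) =
        (m - i, l.drop (min m i)) := by
    intro m l i
    induction i with
    | zero => simp
    | succ i ih =>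
      rw [Function.iterate_succ_apply', ih]
      split_ifs with h
      · simp only at h
        rw [show m - (i + 1) = m - i by omega, show min m (i + 1) = min m i by omega]
      · simp only [List.tail_drop] at h ⊢
        rw [show m - (i + 1) = m - i - 1 by omega, show min m (i + 1) = min m i + 1 by omega]
  refine (PT.iterate (h := fun _ (y : ℕ × List β) => if y.1 = 0 then y else (y.1 - 1, y.2.tail))
    (by fun_prop) hf (hn.pair hf) (fun a => 4 * sz (n a) + sz (f a) + 2) (by fun_prop)
    (fun a i _ => ?_)).snd.of_eq fun a => ?_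
  · rw [key]
    have := sz_nat_mono (n := n a) (m := n a - i) (by omega)
    have := sz_drop (f a) (min (n a) i)
    simp only [sz_pair]; omega
  · rw [key]
    rcases le_total (n a) (f a).length with h | h
    · simp [h]
    · simp [h]

@[fun_prop] theorem PT.getD {f : α → List β} {n : α → ℕ} {d : α → β} (hf : PT f) (hn : PT n)
    (hd : PT d) : PT (fun a => (f a).getD (n a) (d a)) :=
  ((hn.drop hf).headD hd).of_eq fun a => by simp [List.head?_drop]

theorem PT.range_length {f : α → List β} (hf : PT f) : PT (fun a => List.range (f a).length) := by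
  have key : ∀ i : ℕ, (fun y : List ℕ => y ++ [y.length])^[i] [] = List.range i := by
    intro i
    induction i with
    | zero => rfl
    | succ i ih => rw [Function.iterate_succ_apply', ih, List.range_succ, List.length_range]
  refine (PT.iterate (h := fun _ (y : List ℕ) => y ++ [y.length]) (by fun_prop) hf (PT.const [])
    (fun a => (f a).length * (4 * (f a).length + 1 + 1) + 1) (by fun_prop)
    (fun a i hi => ?_)).of_eq fun a => key _
  rw [key]
  refine (sz_list_le (B := 4 * (f a).length + 1) fun x hx => sz_nat_le ?_).trans ?_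
  · have := List.mem_range.1 hx
    exact Nat.lt_two_pow_self.trans_le (Nat.pow_le_pow_right (by omega) (by omega))
  · rw [List.length_range]; gcongr

/-! Integers. -/

theorem sz_int (z : ℤ) : sz z ≤ sz z.natAbs + 4 := by
  show sz (decide (z < 0), z.natAbs) ≤ _
  have := sz_bool (decide (z < 0))
  rw [sz_pair]; omega

theorem sz_natAbs (z : ℤ) : sz z.natAbs ≤ sz z := by
  show _ ≤ sz (decide (z < 0), z.natAbs)
  rw [sz_pair]; omega

theorem sz_int_le {z : ℤ} {k : ℕ} (h : z.natAbs < 2 ^ k) : sz z ≤ 4 * k + 5 := by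
  have := sz_int z
  have := sz_nat_le h
  omega

theorem natAbs_lt (z : ℤ) : z.natAbs < 2 ^ sz z :=
  (lt_two_pow_sz _).trans_le (Nat.pow_le_pow_right (by omega) (sz_natAbs z))

@[fun_prop] theorem PT.natAbs {f : α → ℤ} (hf : PT f) : PT (fun a => (f a).natAbs) :=
  (PT.right.comp hf).of_enc fun _ => rfl

theorem PT.neg_test {f : α → ℤ} (hf : PT f) : PT (fun a => decide (f a < 0)) :=
  (PT.left.comp hf).of_enc fun _ => rfl

@[fun_prop] theorem PT.natCast {f : α → ℕ} (hf : PT f) : PT (fun a => (f a : ℤ)) :=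
  ((PT.const false).pair hf).of_enc fun a => by
    show _ = enc (decide ((f a : ℤ) < 0), (f a : ℤ).natAbs)
    rw [decide_eq_false (by omega), Int.natAbs_natCast]

@[fun_prop] theorem PT.neg {f : α → ℤ} (hf : PT f) : PT (fun a => - f a) :=
  ((hf.neg_test.not.and hf.natAbs.eq_zero.not).pair hf.natAbs).of_enc fun a => by
    show _ = enc (decide (-f a < 0), (-f a).natAbs)
    congr 2
    · rcases lt_trichotomy (f a) 0 with h | h | h
      · simp [h, h.le]
      · simp [h]
      · simp [h, h.le, h.ne']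
    · simp

@[fun_prop] theorem PT.toNat {f : α → ℤ} (hf : PT f) : PT (fun a => (f a).toNat) :=
  (PT.ite hf.neg_test (PT.const 0) hf.natAbs).of_eq fun a => by split_ifs <;> omega

theorem PT.subNat {f g : α → ℕ} (hf : PT f) (hg : PT g) : PT (fun a => (f a : ℤ) - g a) :=
  (PT.ite (hf.lt hg) (hg.sub hf).natCast.neg (hf.sub hg).natCast).of_eq fun a => by
    split_ifs <;> omega

@[fun_prop] theorem PT.iadd {f g : α → ℤ} (hf : PT f) (hg : PT g) : PT (fun a => f a + g a) :=
  ((hf.toNat.add hg.toNat).subNat (hf.neg.toNat.add hg.neg.toNat)).of_eq fun a => by omega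

@[fun_prop] theorem PT.isub {f g : α → ℤ} (hf : PT f) (hg : PT g) : PT (fun a => f a - g a) :=
  (hf.iadd hg.neg).of_eq fun a => by omega

@[fun_prop] theorem PT.ile {f g : α → ℤ} (hf : PT f) (hg : PT g) :
    PT (fun a => decide (f a ≤ g a)) :=
  ((hf.toNat.add hg.neg.toNat).le (hg.toNat.add hf.neg.toNat)).of_eq fun a => by
    rw [decide_eq_decide]; omega

@[fun_prop] theorem PT.ilt {f g : α → ℤ} (hf : PT f) (hg : PT g) :
    PT (fun a => decide (f a < g a)) :=
  (hg.ile hf).not.of_eq fun a => by by_cases h : f a < g a <;> simp [h]; omega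

@[fun_prop] theorem PT.ieq {f g : α → ℤ} (hf : PT f) (hg : PT g) :
    PT (fun a => decide (f a = g a)) :=
  ((hg.ile hf).and (hf.ile hg)).of_eq fun a => by by_cases h : f a = g a <;> simp [h]; omega

@[fun_prop] theorem PT.imul {f g : α → ℤ} (hf : PT f) (hg : PT g) : PT (fun a => f a * g a) :=
  (PT.ite hf.neg_test
    (PT.ite hg.neg_test (hf.natAbs.mul hg.natAbs).natCast (hf.natAbs.mul hg.natAbs).natCast.neg)
    (PT.ite hg.neg_test (hf.natAbs.mul hg.natAbs).natCast.neg
      (hf.natAbs.mul hg.natAbs).natCast)).of_eq fun a => by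
    push_cast
    split_ifs with h1 h2 h2
    · rw [abs_of_neg h1, abs_of_neg h2]; ring
    · rw [abs_of_neg h1, abs_of_nonneg (not_lt.1 h2)]; ring
    · rw [abs_of_nonneg (not_lt.1 h1), abs_of_neg h2]; ring
    · rw [abs_of_nonneg (not_lt.1 h1), abs_of_nonneg (not_lt.1 h2)]

@[fun_prop] theorem PT.imax {f g : α → ℤ} (hf : PT f) (hg : PT g) :
    PT (fun a => max (f a) (g a)) :=
  (PT.ite (hf.ile hg) hg hf).of_eq fun a => by split_ifs <;> omega

@[fun_prop] theorem PT.imin {f g : α → ℤ} (hf : PT f) (hg : PT g) :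
    PT (fun a => min (f a) (g a)) :=
  (PT.ite (hf.ile hg) hf hg).of_eq fun a => by split_ifs <;> omega

example : PT (fun p : ℕ × ℤ × ℤ => if p.2.1 ≤ p.2.2 + 2 * (p.1 : ℤ) then p.2.1 - (p.1 / 8 : ℕ)
    else max p.2.1 (p.2.2 - 3 * (p.1 / 8 : ℕ))) := by fun_prop

example : PT (fun p : ℕ × List ℤ × List ℕ => List.zipWith
    (fun (a : ℤ) (l : ℕ) => if p.1 < l then a + 4 * (p.1 : ℤ) else a) p.2.1 p.2.2) := by fun_prop

end Vale.Agent.Lib.H24.T
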