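import Vale.Agent.Lib.H24.PTNum

/-!
Quasipolynomial time by padding.
-/

namespace Vale.Agent.Lib.H24.T

variable {α β γ : Type} [Enc α] [Enc β] [Enc γ]

@[fun_prop] theorem PT.sum {f : α → List ℕ} (hf : PT f) : PT (fun a => (f a).sum) := by
  refine (PT.foldl (h := fun _ (y x : ℕ) => y + x) (by fun_prop) hf (PT.const 0)
    (fun a => 4 * (sz (f a) + sz (f a)) + 1) (by fun_prop) fun a i => sz_nat_le ?_).of_eq
    fun a => List.sum_eq_foldl.symm
  rw [← List.sum_eq_foldl]
  have h1 := List.sum_le_card_nsmul ((f a).take i) (2 ^ sz (f a)) fun x hx =>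
    (lt_two_pow_sz x).le.trans (Nat.pow_le_pow_right (by omega) (sz_mem (List.mem_of_mem_take hx)))
  have h2 : ((f a).take i).length < 2 ^ sz (f a) := by
    have := length_le_sz (f a)
    have := @Nat.lt_two_pow_self (sz (f a))
    simp; omega
  have h3 : 0 < 2 ^ sz (f a) := by positivity
  rw [smul_eq_mul] at h1
  rw [pow_add]
  nlinarith

theorem sz_units (l : List Unit) : sz l = 2 * l.length + 1 := by
  induction l with
  | nil => rfl
  | cons a l ih => simp [ih]; omega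

/-- Bounded by a power of `Y`. -/
def Pw {α : Type} (Y φ : α → ℕ) : Prop := ∃ k, ∀ a, φ a ≤ (Y a + 2) ^ k

theorem Pw.mono {α : Type} {Y φ ψ : α → ℕ} (h : Pw Y ψ) (hle : ∀ a, φ a ≤ ψ a) : Pw Y φ := by
  obtain ⟨k, hk⟩ := h
  exact ⟨k, fun a => (hle a).trans (hk a)⟩

theorem Pw.const {α : Type} {Y : α → ℕ} (c : ℕ) : Pw Y (fun _ : α => c) :=
  ⟨c, fun a => (Nat.lt_two_pow_self).le.trans (Nat.pow_le_pow_left (by omega) c)⟩

theorem Pw.add {α : Type} {Y φ ψ : α → ℕ} (h : Pw Y φ) (h' : Pw Y ψ) :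
    Pw Y (fun a => φ a + ψ a) := by
  obtain ⟨k, hk⟩ := h
  obtain ⟨k', hk'⟩ := h'
  refine ⟨k + k' + 1, fun a => ?_⟩
  have h1 : (Y a + 2) ^ k ≤ (Y a + 2) ^ (k + k') := Nat.pow_le_pow_right (by omega) (by omega)
  have h2 : (Y a + 2) ^ k' ≤ (Y a + 2) ^ (k + k') := Nat.pow_le_pow_right (by omega) (by omega)
  have := hk a
  have := hk' a
  rw [pow_succ]
  nlinarith

theorem Pw.pow {α : Type} {Y φ : α → ℕ} (h : Pw Y φ) (j : ℕ) : Pw Y (fun a => φ a ^ j) := by
  obtain ⟨k, hk⟩ := h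
  exact ⟨k * j, fun a => by rw [pow_mul]; exact Nat.pow_le_pow_left (hk a) j⟩

theorem qp_run' {base cnt : α → List Unit} (hb : PT base) (hc : PT cnt)
    {G : α × List Unit → β} (hG : PT G) :
    ∃ (p : BP) (c : ℕ), ∀ a, ∃ fuel : List Unit, (base a).length ^ (cnt a).length ≤ fuel.length ∧
      Run p (code a) (code (G (a, fuel))) ((sz a + 2) ^ (c * ((cnt a).length + 1))) := by
  obtain ⟨p1, k1, h1⟩ := PT.foldl_run
    (h := fun (_ : Unit) (y : α × List Unit) (_ : Unit) =>
      (y.1, y.2.flatMap fun _ => () :: base y.1)) (by fun_prop)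
  obtain ⟨p0, t0, ht0, h0⟩ : PT (fun a => ((), (a, [()]), cnt a)) := by fun_prop
  obtain ⟨p2, t2, ⟨k2, ht2⟩, h2⟩ := hG
  have key : ∀ (a : α) (m : List Unit) (y : List Unit), ∃ z : List Unit,
      z.length = y.length * ((base a).length + 1) ^ m.length ∧
      m.foldl (fun (y : α × List Unit) (_ : Unit) => (y.1, y.2.flatMap fun _ => () :: base y.1))
        (a, y) = (a, z) := by
    intro a m
    induction m with
    | nil => intro y; exact ⟨y, by simp, rfl⟩
    | cons x m ih =>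
      intro y
      obtain ⟨z, hz, he⟩ := ih (y.flatMap fun _ => () :: base a)
      refine ⟨z, ?_, he⟩
      rw [hz, List.length_flatMap]
      simp [pow_succ]; ring
  let Y : α → ℕ := fun a => (sz a + 2) ^ ((cnt a).length + 1)
  have hY : ∀ a, sz a + 2 ≤ Y a := fun a => Nat.le_self_pow (by omega) _
  have w0 : ∀ φ : α → ℕ, Pb φ → Pw Y φ := fun φ ⟨k, hk⟩ =>
    ⟨k, fun a => (hk a).trans (Nat.pow_le_pow_left (by have := hY a; omega) k)⟩
  have w1 : Pw Y (fun a => ((base a).length + 1) ^ (cnt a).length) := by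
    obtain ⟨k, hk⟩ : Pb (fun a => (base a).length + 1) := by fun_prop
    refine ⟨k, fun a => ?_⟩
    calc _ ≤ ((sz a + 2) ^ k) ^ (cnt a).length := Nat.pow_le_pow_left (hk a) _
      _ ≤ ((sz a + 2) ^ k) ^ ((cnt a).length + 1) :=
        Nat.pow_le_pow_right (by positivity) (by omega)
      _ = Y a ^ k := by rw [← pow_mul, mul_comm, pow_mul]
      _ ≤ _ := Nat.pow_le_pow_left (by omega) _
  have w2 := ((w0 _ Pb.sz_id).add (w1.add w1)).add (Pw.const 2)
  obtain ⟨c, hc⟩ := (w0 _ ht0).add ((((((Pw.const 1).add w2).add (w0 _ (Pb.sz hc))).add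
    (Pw.const 2)).pow k1).add ((w2.add (Pw.const 2)).pow k2))
  refine ⟨.seq p0 (.seq p1 p2), 2 * c, fun a => ?_⟩
  have e1 := h1 () (a, [()]) (cnt a) (sz a + (((base a).length + 1) ^ (cnt a).length +
    ((base a).length + 1) ^ (cnt a).length) + 2) (fun i => by
      obtain ⟨z, hz, he⟩ := key a ((cnt a).take i) [()]
      have : ((base a).length + 1) ^ ((cnt a).take i).length ≤
          ((base a).length + 1) ^ (cnt a).length := Nat.pow_le_pow_right (by omega) (by simp)
      rw [he, sz_pair, sz_units, hz]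
      simp only [List.length_singleton]
      omega)
  obtain ⟨z, hz, he⟩ := key a (cnt a) [()]
  rw [he] at e1
  have e2 := h2 (a, z)
  refine ⟨z, by rw [hz, List.length_singleton, one_mul]; exact Nat.pow_le_pow_left (by omega) _,
    ((h0 a).comp (e1.comp e2)).mono (le_trans ?_ ((hc a).trans ?_))⟩
  · have := ht2 (a, z)
    rw [sz_pair, sz_units, hz, List.length_singleton, one_mul] at this
    refine Nat.add_le_add_left (Nat.add_le_add le_rfl (this.trans (le_of_eq ?_))) _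
    congr 1; omega
  · have := hY a
    calc (Y a + 2) ^ c ≤ (Y a ^ 2) ^ c := Nat.pow_le_pow_left (by nlinarith) c
      _ = _ := by rw [← pow_mul, ← pow_mul]; congr 1; ring

theorem qp_run {f : α → β} {base cnt : α → List Unit} (hb : PT base) (hc : PT cnt)
    {G : α × List Unit → β} (hG : PT G)
    (hf : ∀ a fuel, (base a).length ^ (cnt a).length ≤ fuel.length → G (a, fuel) = f a) :
    ∃ (p : BP) (c : ℕ), ∀ a, Run p (code a) (code (f a))
      ((sz a + 2) ^ (c * ((cnt a).length + 1))) := by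
  obtain ⟨p, c, h⟩ := qp_run' hb hc hG
  refine ⟨p, c, fun a => ?_⟩
  obtain ⟨z, h1, h2⟩ := h a
  rwa [hf a z h1] at h2

open Turing in
/-- From a run time `L ^ O(log n)` with `n ≤ L` to a machine. -/
theorem exists_qp_tm {ea : α → List Bool} {eb : β → List Bool} (hea : ∀ a, ea a = code a)
    (heb : ∀ b, eb b = code b) {f : α → β} (n : α → ℕ) (hn : ∀ a, n a ≤ sz a) (j : ℕ)
    {cnt : α → ℕ} (hcnt : ∀ a, cnt a ≤ j * (Nat.log 2 (n a) + 1)) {p : BP} {c : ℕ}
    (h : ∀ a, Run p (code a) (code (f a)) ((sz a + 2) ^ (c * (cnt a + 1)))) :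
    ∃ (c : ℕ) (M : TM2ComputableInTime ea eb f),
      (∀ L, M.time L ≤ 2 ^ (c * Nat.log 2 (L + 2) ^ 2)) ∧
      ∀ a, Nonempty (TM2OutputsInTime M.tm ((ea a).map M.inputAlphabet.invFun)
        (some ((eb (f a)).map M.outputAlphabet.invFun))
        (((ea a).length + 2) ^ (c * (Nat.log 2 (n a) + 1)))) := by
  obtain ⟨tm, ein, eout, htm⟩ := exists_tm p
  have key : ∀ a T, (sz a + 2) ^ ((c * (j + 1) + 2) * (Nat.log 2 (n a) + 1)) ≤ T →
      Nonempty (TM2OutputsInTime tm ((ea a).map ein.invFun) (some ((eb (f a)).map eout.invFun)) T) := by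
    intro a T hT
    have h1 : (sz a + 2) ^ (c * (cnt a + 1)) + 2 ≤ T := by
      refine le_trans ?_ hT
      have e1 : c * (cnt a + 1) ≤ c * ((j + 1) * (Nat.log 2 (n a) + 1)) :=
        Nat.mul_le_mul_left _ (by have := hcnt a; nlinarith)
      have e2 : (sz a + 2) ^ (c * (cnt a + 1) + 2) ≤
          (sz a + 2) ^ ((c * (j + 1) + 2) * (Nat.log 2 (n a) + 1)) :=
        Nat.pow_le_pow_right (by omega) (by nlinarith)
      have e3 : 1 ≤ (sz a + 2) ^ (c * (cnt a + 1)) := Nat.one_le_pow _ _ (by omega)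
      have e4 : (sz a + 2) ^ (c * (cnt a + 1)) * 2 ^ 2 ≤
          (sz a + 2) ^ (c * (cnt a + 1)) * (sz a + 2) ^ 2 := by gcongr; omega
      rw [pow_add] at e2
      omega
    obtain ⟨T', rfl⟩ : ∃ T', T = T' + 2 := ⟨T - 2, by omega⟩
    rw [hea, heb]
    exact htm _ _ _ ((h a).mono (by omega))
  refine ⟨4 * (c * (j + 1) + 2),
    { tm := tm, inputAlphabet := ein, outputAlphabet := eout,
      time := fun L => 2 ^ (4 * (c * (j + 1) + 2) * Nat.log 2 (L + 2) ^ 2),
      outputsFun := fun a => (key a _ ?_).some }, fun L => le_rfl, fun a => key a _ ?_⟩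
  · have e0 : (ea a).length = sz a := by rw [hea]; rfl
    rw [e0]
    have h1 : 1 ≤ Nat.log 2 (sz a + 2) := Nat.le_log_of_pow_le (by omega) (by omega)
    have h2 : sz a + 2 ≤ 2 ^ (2 * Nat.log 2 (sz a + 2)) :=
      (Nat.lt_pow_succ_log_self (b := 2) (by omega) _).le.trans
        (Nat.pow_le_pow_right (by omega) (by omega))
    have h3 : Nat.log 2 (n a) ≤ Nat.log 2 (sz a + 2) := Nat.log_mono_right (by have := hn a; omega)
    refine (Nat.pow_le_pow_left h2 _).trans ?_
    rw [← pow_mul]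
    refine Nat.pow_le_pow_right (by omega) ?_
    generalize c * (j + 1) + 2 = C
    calc _ ≤ 2 * Nat.log 2 (sz a + 2) * (C * (2 * Nat.log 2 (sz a + 2))) := by gcongr; omega
      _ = _ := by ring
  · have e0 : (ea a).length = sz a := by rw [hea]; rfl
    rw [e0]
    exact Nat.pow_le_pow_right (by omega) (Nat.mul_le_mul_right _ (by omega))

end Vale.Agent.Lib.H24.T
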