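import Vale.Agent.Lib.H24.SP

/-!
Stack programs acting on serialized binary trees.
-/

namespace Vale.Agent.Lib.H24.T

open Function

/-- Programs over Boolean stacks. -/
abbrev BP := Prog ℕ Bool

/-- Hoare triple with a time bound. -/
def Tri (p : BP) (S S' : ℕ → List Bool) (t : ℕ) : Prop :=
  ∀ v, ∃ t' v', t' ≤ t ∧ Exec p v S t' v' S'

theorem Tri.mono {p S S' t t'} (h : Tri p S S' t) (ht : t ≤ t') : Tri p S S' t' := fun v => by
  obtain ⟨t1, v1, h1, h2⟩ := h v
  exact ⟨t1, v1, h1.trans ht, h2⟩

theorem Tri.seq {p q S S1 S2 t t'} (h : Tri p S S1 t) (h' : Tri q S1 S2 t') :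
    Tri (.seq p q) S S2 (t + t') := fun v => by
  obtain ⟨t1, v1, h1, h2⟩ := h v
  obtain ⟨t2, v2, h3, h4⟩ := h' v1
  exact ⟨t1 + t2, v2, by omega, h2.seq h4⟩

theorem Tri.cast {p S S' t S₁ S₁'} (h : Tri p S S' t) (h1 : S = S₁) (h2 : S' = S₁') :
    Tri p S₁ S₁' t := h1 ▸ h2 ▸ h

theorem Tri.skip {S} : Tri .skip S S 0 := fun v => ⟨0, v, le_rfl, Exec.skip⟩

theorem Tri.push (x b S) : Tri (.push x b) S (update S x (b :: S x)) 0 :=
  fun v => ⟨0, v, le_rfl, Exec.push⟩

theorem Tri.pop (x S) : Tri (.pop x) S (update S x (S x).tail) 0 :=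
  fun v => ⟨0, v, le_rfl, Exec.pop⟩

theorem Tri.shift {p S S' t} (l : List Bool) (h : Tri p S S' t) :
    Tri (p.map Nat.succ) (scons l S) (scons l S') t := fun v => by
  obtain ⟨t1, v1, h1, h2⟩ := h v
  exact ⟨t1, v1, h1, exec_shift l h2⟩

/-- Pop a symbol and branch on it. -/
def brk (x : ℕ) (p q : BP) : BP := .seq (.popv x) (.ifv (fun o => o.getD false) p q)

theorem Tri.brkT {x p q S S' t l} (hx : S x = true :: l) (h : Tri p (update S x l) S' t) :
    Tri (brk x p q) S S' t := fun v => by
  obtain ⟨t1, v1, h1, h2⟩ := h (some true)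
  refine ⟨0 + t1, v1, by omega, Exec.seq Exec.popv (Exec.ifT ?_ ?_)⟩ <;> simp [hx, h2]

theorem Tri.brkF {x p q S S' t l} (hx : S x = false :: l) (h : Tri q (update S x l) S' t) :
    Tri (brk x p q) S S' t := fun v => by
  obtain ⟨t1, v1, h1, h2⟩ := h (some false)
  refine ⟨0 + t1, v1, by omega, Exec.seq Exec.popv (Exec.ifF ?_ ?_)⟩ <;> simp [hx, h2]

theorem Tri.whileNil {x p S} (hx : S x = []) : Tri (.whilePop x p) S S 1 :=
  fun _ => ⟨1, none, le_rfl, Exec.whileNil hx⟩

theorem Tri.whileCons {x p S b l S1 S2 t t'} (hx : S x = b :: l)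
    (h : ∃ t1 v1, t1 ≤ t ∧ Exec p (some b) (update S x l) t1 v1 S1)
    (h' : Tri (.whilePop x p) S1 S2 t') : Tri (.whilePop x p) S S2 (t + t' + 1) := fun _ => by
  obtain ⟨t1, v1, h1, h2⟩ := h
  obtain ⟨t2, v2, h3, h4⟩ := h' v1
  exact ⟨t1 + t2 + 1, v2, by omega, Exec.whileCons hx h2 h4⟩

/-- Move a stack, reversing it. -/
def mv (a b : ℕ) : BP := .whilePop a (.pushv b false)

/-- Move a stack to two places, reversing it. -/
def dup (a b c : ℕ) : BP := .whilePop a (.seq (.pushv b false) (.pushv c false))

/-- Clear a stack. -/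
def clr (a : ℕ) : BP := .whilePop a .skip

theorem Tri.mv {a b : ℕ} (hab : a ≠ b) (l : List Bool) : ∀ S : ℕ → List Bool, S a = l →
    Tri (mv a b) S (update (update S a []) b (l.reverse ++ S b)) (l.length + 1) := by
  induction l with
  | nil =>
    intro S hS
    refine (Tri.whileNil hS).cast rfl ?_
    rw [← hS, update_eq_self]; simp [hS]
  | cons x l ih =>
    intro S hS
    have := Tri.whileCons hS ⟨0, _, le_rfl, Exec.pushv (x := b) (d := false)⟩
      (ih _ (by simp [hab]))
    refine (this.mono (by simp)).cast rfl ?_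
    funext j
    by_cases h1 : j = b <;> by_cases h2 : j = a <;> simp_all [hab.symm]

theorem Tri.dup {a b c : ℕ} (hab : a ≠ b) (hac : a ≠ c) (hbc : b ≠ c) (l : List Bool) :
    ∀ S : ℕ → List Bool, S a = l →
    Tri (dup a b c) S (update (update (update S a []) b (l.reverse ++ S b)) c (l.reverse ++ S c))
      (l.length + 1) := by
  induction l with
  | nil =>
    intro S hS
    refine (Tri.whileNil hS).cast rfl ?_
    rw [← hS, update_eq_self]; simp [hS]
  | cons x l ih =>
    intro S hS
    have := Tri.whileCons hS ⟨0 + 0, _, le_rfl,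
      Exec.seq (Exec.pushv (x := b) (d := false)) (Exec.pushv (x := c) (d := false))⟩
      (ih _ (by simp [hab, hac]))
    refine (this.mono (by simp)).cast rfl ?_
    funext j
    by_cases h1 : j = b <;> by_cases h2 : j = a <;> by_cases h3 : j = c <;>
      simp_all [hab.symm, hac.symm, hbc.symm]

theorem Tri.clr {a : ℕ} (l : List Bool) : ∀ S : ℕ → List Bool, S a = l →
    Tri (clr a) S (update S a []) (l.length + 1) := by
  induction l with
  | nil =>
    intro S hS
    refine (Tri.whileNil hS).cast rfl ?_
    rw [← hS, update_eq_self]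
  | cons x l ih =>
    intro S hS
    have := Tri.whileCons hS ⟨0, _, le_rfl, Exec.skip⟩ (ih _ (by simp))
    exact (this.mono (by simp)).cast rfl (by simp)

/-- Binary trees. -/
inductive Tr : Type
  | nil : Tr
  | node (a b : Tr) : Tr

/-- Serialization of a tree. -/
def ser : Tr → List Bool
  | .nil => [false]
  | .node a b => true :: (ser a ++ ser b)

/-- Left child. -/
def Tr.left : Tr → Tr
  | .nil => .nil
  | .node a _ => a

/-- Right child. -/
def Tr.right : Tr → Tr
  | .nil => .nil
  | .node _ b => b

/-- Copy as many trees as the counter says. -/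
def cpt (x y c : ℕ) : BP :=
  .whilePop c (.seq (.popv x) (.seq (.pushv y false)
    (.ifv (fun o => o.getD false) (.seq (.push c true) (.push c true)) .skip)))

theorem Tri.cpt {x y c : ℕ} (hxy : x ≠ y) (hxc : x ≠ c) (hyc : y ≠ c) (rest : List Bool) (n : ℕ) :
    ∀ (ts : List Tr) (S : ℕ → List Bool), (ts.flatMap ser).length = n →
    S x = ts.flatMap ser ++ rest → S c = List.replicate ts.length true →
    Tri (cpt x y c) S
      (update (update (update S x rest) y ((ts.flatMap ser).reverse ++ S y)) c []) (n + 1) := by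
  induction n with
  | zero =>
    intro ts S hn hx hc
    rcases ts with _ | ⟨t, ts⟩
    · refine (Tri.whileNil hc).cast rfl ?_
      simp only [List.flatMap_nil, List.nil_append, List.reverse_nil] at hx ⊢
      rw [← hx, update_eq_self, update_eq_self, eq_comm, update_eq_self_iff]
      exact hc.symm
    · cases t <;> simp [ser] at hn
  | succ n ih =>
    intro ts S hn hx hc
    rcases ts with _ | ⟨t, ts⟩
    · simp at hn
    rw [List.length_cons, List.replicate_succ] at hc
    cases t with
    | nil =>
      have := Tri.whileCons hc ⟨0 + (0 + 0), _, le_rfl, Exec.seq (Exec.popv (x := x))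
        (Exec.seq (Exec.pushv (x := y) (d := false)) (Exec.ifF (f := fun o => o.getD false)
          (p := .seq (.push c true) (.push c true)) (by simp [hxc, hx, ser]) Exec.skip))⟩
        (ih ts _ (by simpa [ser] using hn) (by simp [hxy, hxc, hx, ser])
          (by simp [hxc.symm, hyc.symm]))
      refine (this.mono (by omega)).cast rfl ?_
      funext j
      by_cases h1 : j = x <;> by_cases h2 : j = y <;> by_cases h3 : j = c <;>
        simp_all [hxy.symm, hxc.symm, hyc.symm, ser]
    | node a b =>
      have := Tri.whileCons hc ⟨0 + (0 + (0 + 0)), _, le_rfl, Exec.seq (Exec.popv (x := x))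
        (Exec.seq (Exec.pushv (x := y) (d := false)) (Exec.ifT (f := fun o => o.getD false)
          (q := .skip) (by simp [hxc, hx, ser]) (Exec.seq (Exec.push (x := c) (γ := true))
            (Exec.push (x := c) (γ := true)))))⟩
        (ih (a :: b :: ts) _ (by simp [ser] at hn ⊢; omega) (by simp [hxy, hxc, hx, ser])
          (by simp [hxc.symm, hyc.symm, List.replicate_succ]))
      refine (this.mono (by omega)).cast rfl ?_
      funext j
      by_cases h1 : j = x <;> by_cases h2 : j = y <;> by_cases h3 : j = c <;>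
        simp_all [hxy.symm, hxc.symm, hyc.symm, ser]

/-- A window of four stacks. -/
def W (a b c d : List Bool) : ℕ → List Bool :=
  scons a (scons b (scons c (scons d (fun _ => []))))

theorem scons_nil : scons [] (fun _ => ([] : List Bool)) = fun _ => [] := by
  funext j; cases j <;> rfl

@[simp] theorem W0 (a b c d) : W a b c d 0 = a := rfl
@[simp] theorem W1 (a b c d) : W a b c d 1 = b := rfl
@[simp] theorem W2 (a b c d) : W a b c d 2 = c := rfl
@[simp] theorem W3 (a b c d) : W a b c d 3 = d := rfl
@[simp] theorem uW0 (a b c d x) : update (W a b c d) 0 x = W x b c d := update_scons_zero _ _ _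
@[simp] theorem uW1 (a b c d x) : update (W a b c d) 1 x = W a x c d := by
  unfold W; rw [update_scons_succ, update_scons_zero]
@[simp] theorem uW2 (a b c d x) : update (W a b c d) 2 x = W a b x d := by
  unfold W; rw [update_scons_succ, update_scons_succ, update_scons_zero]
@[simp] theorem uW3 (a b c d x) : update (W a b c d) 3 x = W a b c x := by
  unfold W; rw [update_scons_succ, update_scons_succ, update_scons_succ, update_scons_zero]

/-- `p` turns the input `x` on stack `0` into `y` within time `t`. -/
def Run (p : BP) (x y : List Bool) (t : ℕ) : Prop := Tri p (W x [] [] []) (W y [] [] []) t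

theorem Run.s1 {p x y t} (h : Run p x y t) (a) :
    Tri (p.map Nat.succ) (W a x [] []) (W a y [] []) t := by
  have := Tri.shift a h
  simp only [W, scons_nil] at this ⊢
  exact this

theorem Run.s2 {p x y t} (h : Run p x y t) (a b) :
    Tri ((p.map Nat.succ).map Nat.succ) (W a b x []) (W a b y []) t := by
  have := Tri.shift a (Tri.shift b h)
  simp only [W, scons_nil] at this ⊢
  exact this

theorem Run.s3 {p x y t} (h : Run p x y t) (a b c) :
    Tri (((p.map Nat.succ).map Nat.succ).map Nat.succ) (W a b c x) (W a b c y) t := by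
  have := Tri.shift a (Tri.shift b (Tri.shift c h))
  simp only [W, scons_nil] at this ⊢
  exact this

theorem Run.mono {p x y t t'} (h : Run p x y t) (ht : t ≤ t') : Run p x y t' := Tri.mono h ht

theorem Run.length {p x y t} (h : Run p x y t) : y.length ≤ x.length + p.size * (t + 1) := by
  obtain ⟨t', v', h1, h2⟩ := h none
  have := exec_length h2 0
  simp only [W0] at this
  nlinarith

theorem Run.comp {p q x y z t t'} (h : Run p x y t) (h' : Run q y z t') :
    Run (.seq p q) x z (t + t') := Tri.seq h h'

/-- Push a fixed word. -/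
def pushAll : List Bool → BP
  | [] => .skip
  | b :: l => .seq (pushAll l) (.push 0 b)

theorem Run.const (y x : List Bool) : Run (.seq (clr 0) (pushAll y)) x y (x.length + 1) := by
  have h : ∀ y, Tri (pushAll y) (W [] [] [] []) (W y [] [] []) 0 := by
    intro y
    induction y with
    | nil => exact Tri.skip
    | cons b l ih => exact (ih.seq (Tri.push 0 b _)).cast rfl (by simp)
  exact ((Tri.clr x (W x [] [] []) rfl).cast rfl (by simp)).seq (h y)

/-- The pairing program. -/
def pairP (p q : BP) : BP :=
  .seq (dup 0 1 2) (.seq (mv 2 3) (.seq (((q.map Nat.succ).map Nat.succ).map Nat.succ)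
    (.seq (mv 3 2) (.seq (mv 2 0) (.seq (mv 1 2) (.seq ((p.map Nat.succ).map Nat.succ)
      (.seq (mv 2 1) (.seq (mv 1 0) (.push 0 true)))))))))

theorem Run.pair {p q x y z t t'} (h : Run p x y t) (h' : Run q x z t') :
    Run (pairP p q) x (true :: (y ++ z))
      (t + t' + 3 * x.length + 2 * y.length + 2 * z.length + 7) := by
  have e1 := (Tri.dup (a := 0) (b := 1) (c := 2) (by omega) (by omega) (by omega) x
    (W x [] [] []) rfl)
  have e2 := Tri.mv (a := 2) (b := 3) (by omega) _ (W [] x.reverse x.reverse []) rfl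
  have e3 := h'.s3 [] x.reverse []
  have e4 := Tri.mv (a := 3) (b := 2) (by omega) _ (W [] x.reverse [] z) rfl
  have e5 := Tri.mv (a := 2) (b := 0) (by omega) _ (W [] x.reverse z.reverse []) rfl
  have e6 := Tri.mv (a := 1) (b := 2) (by omega) _ (W z x.reverse [] []) rfl
  have e7 := h.s2 z []
  have e8 := Tri.mv (a := 2) (b := 1) (by omega) _ (W z [] y []) rfl
  have e9 := Tri.mv (a := 1) (b := 0) (by omega) _ (W z y.reverse [] []) rfl
  have e10 := Tri.push 0 true (W (y ++ z) [] [] [])
  simp only [W0, W1, W2, W3, uW0, uW1, uW2, uW3, List.append_nil, List.reverse_reverse,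
    List.length_reverse] at e1 e2 e4 e5 e6 e8 e9 e10
  exact (e1.seq (e2.seq (e3.seq (e4.seq (e5.seq (e6.seq (e7.seq (e8.seq (e9.seq e10))))))))).mono
    (by omega)

/-- The program for the left child. -/
def leftP : BP := brk 0 (.seq (.push 2 true) (.seq (cpt 0 1 2) (.seq (clr 0) (mv 1 0))))
  (.push 0 false)

/-- The program for the right child. -/
def rightP : BP := brk 0 (.seq (.push 2 true) (.seq (cpt 0 1 2) (clr 1))) (.push 0 false)

theorem Run.left (a : Tr) : Run leftP (ser a) (ser a.left) (2 * (ser a).length + 1) := by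
  cases a with
  | nil => exact Tri.brkF rfl (((Tri.push 0 false _).cast rfl (by simp; rfl)).mono (by omega))
  | node a b =>
    refine Tri.brkT rfl ?_
    have e1 := Tri.push 2 true (W (ser a ++ ser b) [] [] [])
    have e2 := Tri.cpt (x := 0) (y := 1) (c := 2) (by omega) (by omega) (by omega) (ser b) _ [a]
      (W (ser a ++ ser b) [] [true] []) rfl (by simp) rfl
    have e3 := Tri.clr (a := 0) _ (W (ser b) (ser a).reverse [] []) rfl
    have e4 := Tri.mv (a := 1) (b := 0) (by omega) _ (W [] (ser a).reverse [] []) rfl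
    simp only [W0, W1, W2, uW0, uW1, uW2, List.append_nil, List.reverse_reverse,
      List.length_reverse, List.flatMap_cons, List.flatMap_nil] at e1 e2 e3 e4 ⊢
    exact (e1.seq (e2.seq (e3.seq e4))).mono (by simp [ser]; omega)

theorem Run.right (a : Tr) : Run rightP (ser a) (ser a.right) (2 * (ser a).length + 1) := by
  cases a with
  | nil => exact Tri.brkF rfl (((Tri.push 0 false _).cast rfl (by simp; rfl)).mono (by omega))
  | node a b =>
    refine Tri.brkT rfl ?_
    have e1 := Tri.push 2 true (W (ser a ++ ser b) [] [] [])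
    have e2 := Tri.cpt (x := 0) (y := 1) (c := 2) (by omega) (by omega) (by omega) (ser b) _ [a]
      (W (ser a ++ ser b) [] [true] []) rfl (by simp) rfl
    have e3 := Tri.clr (a := 1) _ (W (ser b) (ser a).reverse [] []) rfl
    simp only [W1, W2, uW0, uW1, uW2, List.append_nil,
      List.length_reverse, List.flatMap_cons, List.flatMap_nil] at e1 e2 e3 ⊢
    exact (e1.seq (e2.seq e3)).mono (by simp [ser]; omega)

/-- Encoding of a Boolean as a word. -/
def serB : Bool → List Bool
  | true => [true, false, false]
  | false => [false]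

/-- Test for a node. -/
def isNodeP : BP := brk 0 (.seq (clr 0) (pushAll [true, false, false])) (.push 0 false)

/-- Whether a tree is a node. -/
def Tr.isNode : Tr → Bool
  | .nil => false
  | .node _ _ => true

theorem Run.isNode (a : Tr) : Run isNodeP (ser a) (serB a.isNode) ((ser a).length + 1) := by
  cases a with
  | nil => exact Tri.brkF rfl (((Tri.push 0 false _).cast rfl (by simp; rfl)).mono (by omega))
  | node a b =>
    refine Tri.brkT rfl ?_
    rw [uW0]
    exact (Run.const [true, false, false] (ser a ++ ser b)).mono (by simp [ser])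

/-- Branch on the Boolean first component. -/
def condP (x : ℕ) (p q : BP) : BP := .seq (.pop x) (brk x (.seq (.pop x) (.seq (.pop x) p)) q)

theorem Tri.condT {x p q S S' t l} (hx : S x = true :: (serB true ++ l))
    (h : Tri p (update S x l) S' t) : Tri (condP x p q) S S' t := by
  refine ((Tri.pop x S).seq (Tri.brkT (l := false :: false :: l) (by simp [hx, serB])
    ((Tri.pop x _).seq ((Tri.pop x _).seq (h.cast (by simp) rfl))))).mono (by omega)

theorem Tri.condF {x p q S S' t l} (hx : S x = true :: (serB false ++ l))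
    (h : Tri q (update S x l) S' t) : Tri (condP x p q) S S' t := by
  refine ((Tri.pop x S).seq (Tri.brkF (l := l) (by simp [hx, serB])
    (h.cast (by simp) rfl))).mono (by omega)

/-- The loop program. -/
def loopP (p : BP) : BP :=
  .seq (mv 0 2) (.seq (mv 2 1) (.seq (.push 0 true) (.seq
    (.whilePop 0 (condP 1 (.seq (p.map Nat.succ) (.push 0 true)) .skip))
    (.seq (mv 1 2) (mv 2 0)))))

theorem Run.loop {p : BP} (t : ℕ) (s : ℕ → List Bool) (N : ℕ)
    (h : ∀ i < N, Run p (s i) (true :: (serB (decide (i + 1 < N)) ++ s (i + 1))) t) :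
    Run (loopP p) (true :: (serB (decide (0 < N)) ++ s 0)) (s N)
      (N * (t + 1) + 2 * (s 0).length + 2 * (s N).length + 14) := by
  have key : ∀ j i, i + j = N →
      Tri (.whilePop 0 (condP 1 (.seq (p.map Nat.succ) (.push 0 true)) .skip))
        (W [true] (true :: (serB (decide (i < N)) ++ s i)) [] []) (W [] (s N) [] [])
        (j * (t + 1) + 2) := by
    intro j
    induction j with
    | zero =>
      intro i hi
      have hi' : i = N := by omega
      subst hi'
      refine (Tri.whileCons (t := 0) rfl (Tri.condF (l := s i) (by simp) Tri.skip _)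
        ((Tri.whileNil (by simp)).cast rfl (by simp))).mono (by omega)
    | succ j ih =>
      intro i hi
      have hi' : i < N := by omega
      have e1 := (h i hi').s1 []
      have e2 := Tri.push 0 true (W [] (true :: (serB (decide (i + 1 < N)) ++ s (i + 1))) [] [])
      simp only [W0, uW0] at e2
      refine (Tri.whileCons rfl (Tri.condT (l := s i) (by simp [hi'])
        ((e1.seq e2).cast (by simp) rfl) _) (ih (i + 1) (by omega))).mono (by nlinarith)
  have e1 := Tri.mv (a := 0) (b := 2) (by omega) _
    (W (true :: (serB (decide (0 < N)) ++ s 0)) [] [] []) rfl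
  have e2 := Tri.mv (a := 2) (b := 1) (by omega) _
    (W [] [] (true :: (serB (decide (0 < N)) ++ s 0)).reverse []) rfl
  have e3 := Tri.push 0 true (W [] (true :: (serB (decide (0 < N)) ++ s 0)) [] [])
  have e4 := key N 0 (by omega)
  have e5 := Tri.mv (a := 1) (b := 2) (by omega) _ (W [] (s N) [] []) rfl
  have e6 := Tri.mv (a := 2) (b := 0) (by omega) _ (W [] [] (s N).reverse []) rfl
  simp only [W0, W1, W2, uW0, uW1, uW2, List.append_nil, List.reverse_reverse,
    List.length_reverse] at e1 e2 e3 e5 e6
  refine (e1.seq (e2.seq (e3.seq (e4.seq (e5.seq e6))))).mono ?_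
  have : (serB (decide (0 < N))).length ≤ 3 := by cases decide (0 < N) <;> simp [serB]
  simp only [List.length_cons, List.length_append]
  omega

open Turing in
/-- A program gives a machine. -/
theorem exists_tm (p : BP) : ∃ (tm : FinTM2) (ein : tm.Γ tm.k₀ ≃ Bool) (eout : tm.Γ tm.k₁ ≃ Bool),
    ∀ x y t, Run p x y t →
      Nonempty (TM2OutputsInTime tm (x.map ein.invFun) (some (y.map eout.invFun)) (t + 2)) := by
  let P : BP := .seq p (clr 1)
  refine ⟨toFinTM2 (P.map (clamp P.bound)) (clamp P.bound 0) (clamp P.bound 0), Equiv.refl _,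
    Equiv.refl _, fun x y t h => ?_⟩
  obtain ⟨t', v', ht, h1⟩ := h none
  have h2 : Exec P none (W x [] [] []) (t' + 1) none (W y [] [] []) :=
    h1.seq (Exec.whileNil rfl)
  have hW : ∀ z, W z [] [] [] = update (fun _ => []) 0 z := by
    intro z
    simp only [W, scons_nil]
    rw [← update_scons_zero [], scons_nil]
  have h3 := exec_clamp P.bound h2 le_rfl
  rw [hW, hW, update_clamp (Nat.zero_le _), update_clamp (Nat.zero_le _)] at h3
  have k1 := toFinTM2_outputs _ _ _ _ _ (t' + 1) (t + 2) (by omega) h3
  have e1 : ∀ w : List Bool, List.map (Equiv.refl Bool).invFun w = w := fun w => List.map_id w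
  rw [← e1 x, ← e1 y] at k1
  exact k1

end Vale.Agent.Lib.H24.T
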