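import Mathlib

/-!
Structured stack programs and their compilation to Mathlib's `Turing.TM2` machines,
with an exact step count.
-/

namespace Vale.Agent.Lib.H24.T

open Turing Function

/-- Structured stack programs over stacks indexed by `K` with alphabet `Γ`. -/
inductive Prog (K Γ : Type) : Type
  | skip : Prog K Γ
  | push (x : K) (γ : Γ) : Prog K Γ
  | pushv (x : K) (d : Γ) : Prog K Γ
  | pop (x : K) : Prog K Γ
  | popv (x : K) : Prog K Γ
  | seq (p q : Prog K Γ) : Prog K Γ
  | ifv (f : Option Γ → Bool) (p q : Prog K Γ) : Prog K Γ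
  | whilePop (x : K) (p : Prog K Γ) : Prog K Γ

variable {K Γ : Type}

/-- Big step semantics with a step count (one step per loop test). -/
inductive Exec [DecidableEq K] :
    Prog K Γ → Option Γ → (K → List Γ) → ℕ → Option Γ → (K → List Γ) → Prop
  | skip {v S} : Exec .skip v S 0 v S
  | push {x γ v S} : Exec (.push x γ) v S 0 v (update S x (γ :: S x))
  | pushv {x d v S} : Exec (.pushv x d) v S 0 v (update S x (v.getD d :: S x))
  | pop {x v S} : Exec (.pop x) v S 0 v (update S x (S x).tail)
  | popv {x v S} : Exec (.popv x) v S 0 (S x).head? (update S x (S x).tail)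
  | seq {p q v S t v1 S1 t' v2 S2} : Exec p v S t v1 S1 → Exec q v1 S1 t' v2 S2 →
      Exec (.seq p q) v S (t + t') v2 S2
  | ifT {f p q v S t v' S'} : f v = true → Exec p v S t v' S' → Exec (.ifv f p q) v S t v' S'
  | ifF {f p q v S t v' S'} : f v = false → Exec q v S t v' S' → Exec (.ifv f p q) v S t v' S'
  | whileNil {x p v S} : S x = [] → Exec (.whilePop x p) v S 1 none S
  | whileCons {x p v S γ l t v1 S1 t' v2 S2} : S x = γ :: l →
      Exec p (some γ) (update S x l) t v1 S1 → Exec (.whilePop x p) v1 S1 t' v2 S2 →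
      Exec (.whilePop x p) v S (t + t' + 1) v2 S2

/-- Labels needed by a program. -/
def Lab : Prog K Γ → Type
  | .skip => Empty
  | .push _ _ => Empty
  | .pushv _ _ => Empty
  | .pop _ => Empty
  | .popv _ => Empty
  | .seq p q => Lab p ⊕ Lab q
  | .ifv _ p q => Lab p ⊕ Lab q
  | .whilePop _ p => Option (Lab p)

/-- The label types are finite. -/
@[reducible] def labFintype : (p : Prog K Γ) → Fintype (Lab p)
  | .skip => inferInstanceAs (Fintype Empty)
  | .push _ _ => inferInstanceAs (Fintype Empty)
  | .pushv _ _ => inferInstanceAs (Fintype Empty)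
  | .pop _ => inferInstanceAs (Fintype Empty)
  | .popv _ => inferInstanceAs (Fintype Empty)
  | .seq p q => @instFintypeSum _ _ (labFintype p) (labFintype q)
  | .ifv _ p q => @instFintypeSum _ _ (labFintype p) (labFintype q)
  | .whilePop _ p => @instFintypeOption _ (labFintype p)

/-- Entry statement of a program with continuation `k`. -/
def entry {Λ : Type} : (p : Prog K Γ) → (Lab p → Λ) → TM2.Stmt (fun _ : K => Γ) Λ (Option Γ) →
    TM2.Stmt (fun _ : K => Γ) Λ (Option Γ)
  | .skip, _, k => k
  | .push x γ, _, k => .push x (fun _ => γ) k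
  | .pushv x d, _, k => .push x (fun v => v.getD d) k
  | .pop x, _, k => .pop x (fun v _ => v) k
  | .popv x, _, k => .pop x (fun _ o => o) k
  | .seq p q, emb, k => entry p (fun l => emb (Sum.inl l)) (entry q (fun l => emb (Sum.inr l)) k)
  | .ifv f p q, emb, k =>
      .branch f (entry p (fun l => emb (Sum.inl l)) k) (entry q (fun l => emb (Sum.inr l)) k)
  | .whilePop _ _, emb, _ => .goto (fun _ => emb none)

/-- The statement table of a program with continuation `k`. -/
def tbl {Λ : Type} : (p : Prog K Γ) → (Lab p → Λ) → TM2.Stmt (fun _ : K => Γ) Λ (Option Γ) →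
    Lab p → TM2.Stmt (fun _ : K => Γ) Λ (Option Γ)
  | .skip, _, _, l => Empty.elim l
  | .push _ _, _, _, l => Empty.elim l
  | .pushv _ _, _, _, l => Empty.elim l
  | .pop _, _, _, l => Empty.elim l
  | .popv _, _, _, l => Empty.elim l
  | .seq p q, emb, k, Sum.inl l =>
      tbl p (fun l => emb (Sum.inl l)) (entry q (fun l => emb (Sum.inr l)) k) l
  | .seq _ q, emb, k, Sum.inr l => tbl q (fun l => emb (Sum.inr l)) k l
  | .ifv _ p _, emb, k, Sum.inl l => tbl p (fun l => emb (Sum.inl l)) k l
  | .ifv _ _ q, emb, k, Sum.inr l => tbl q (fun l => emb (Sum.inr l)) k l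
  | .whilePop x p, emb, k, none =>
      .pop x (fun _ o => o) (.branch Option.isSome
        (entry p (fun l => emb (some l)) (.goto (fun _ => emb none))) k)
  | .whilePop _ p, emb, _, some l => tbl p (fun l => emb (some l)) (.goto (fun _ => emb none)) l

theorem exec_compile [DecidableEq K] {Λ : Type}
    (M : Λ → TM2.Stmt (fun _ : K => Γ) Λ (Option Γ))
    {p : Prog K Γ} {v S t v' S'} (h : Exec p v S t v' S') :
    ∀ (emb : Lab p → Λ) (k : TM2.Stmt (fun _ : K => Γ) Λ (Option Γ)),
      (∀ l, M (emb l) = tbl p emb k l) →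
      (flip bind (TM2.step M))^[t] (some (TM2.stepAux (entry p emb k) v S)) =
        some (TM2.stepAux k v' S') := by
  induction h with
  | skip => intro emb k _; rfl
  | push => intro emb k _; rfl
  | pushv => intro emb k _; rfl
  | pop => intro emb k _; rfl
  | popv => intro emb k _; rfl
  | seq h1 h2 ih1 ih2 =>
    intro emb k hM
    rw [add_comm, iterate_add_apply]
    simp only [entry]
    rw [ih1 _ _ (fun l => hM (Sum.inl l)), ih2 _ _ (fun l => hM (Sum.inr l))]
  | ifT hf h1 ih =>
    intro emb k hM
    simp only [entry, TM2.stepAux, hf, cond_true]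
    exact ih _ _ (fun l => hM (Sum.inl l))
  | ifF hf h1 ih =>
    intro emb k hM
    simp only [entry, TM2.stepAux, hf, cond_false]
    exact ih _ _ (fun l => hM (Sum.inr l))
  | @whileNil x p v S hx =>
    intro emb k hM
    have h0 := hM none
    simp only [entry, TM2.stepAux, iterate_one, flip, Option.bind_eq_bind, Option.bind_some,
      TM2.step, h0, tbl, hx, List.head?_nil, List.tail_nil, Option.isSome_none, cond_false]
    congr 2
    rw [← hx]; exact update_eq_self x S
  | @whileCons x p v S γ l t v1 S1 t' v2 S2 hx h1 h2 ih1 ih2 =>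
    intro emb k hM
    have h0 := hM none
    rw [iterate_succ_apply, add_comm t t', iterate_add_apply]
    have e1 : flip bind (TM2.step M) (some (TM2.stepAux (entry (.whilePop x p) emb k) v S)) =
        some (TM2.stepAux (entry p (fun l => emb (some l)) (.goto (fun _ => emb none)))
          (some γ) (update S x l)) := by
      simp only [entry, TM2.stepAux, flip, Option.bind_eq_bind, Option.bind_some,
        TM2.step, h0, tbl, hx, List.head?_cons, List.tail_cons, Option.isSome_some, cond_true]
    rw [e1, ih1 _ _ (fun l => hM (some l))]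
    exact ih2 emb k hM

/-- The bundled machine of a program. -/
def toFinTM2 [DecidableEq K] [Fintype K] [Fintype Γ] (p : Prog K Γ) (k₀ k₁ : K) : FinTM2 where
  K := K
  k₀ := k₀
  k₁ := k₁
  Γ := fun _ => Γ
  Λ := Option (Lab p)
  main := none
  ΛFin := @instFintypeOption _ (labFintype p)
  σ := Option Γ
  initialState := none
  m := fun o => match o with
    | none => entry p some .halt
    | some l => tbl p some .halt l

theorem initList_eq (tm : FinTM2) (s : List (tm.Γ tm.k₀)) :
    initList tm s = ⟨some tm.main, tm.initialState,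
      @update tm.K (fun k => List (tm.Γ k)) _ (fun _ => []) tm.k₀ s⟩ := by
  unfold initList
  congr 1
  funext k
  by_cases hk : k = tm.k₀
  · subst hk; simp
  · simp [hk]

theorem haltList_eq (tm : FinTM2) (s : List (tm.Γ tm.k₁)) :
    haltList tm s = ⟨none, tm.initialState,
      @update tm.K (fun k => List (tm.Γ k)) _ (fun _ => []) tm.k₁ s⟩ := by
  unfold haltList
  congr 1
  funext k
  by_cases hk : k = tm.k₁
  · subst hk; simp
  · simp [hk]

theorem toFinTM2_outputs [DecidableEq K] [Fintype K] [Fintype Γ] (p : Prog K Γ) (k₀ k₁ : K)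
    (inp out : List Γ) (t T : ℕ) (ht : t + 1 ≤ T)
    (h : Exec p none (update (fun _ => []) k₀ inp) t none (update (fun _ => []) k₁ out)) :
    Nonempty (TM2OutputsInTime (toFinTM2 p k₀ k₁) inp (some out) T) := by
  refine ⟨⟨⟨t + 1, ?_⟩, ht⟩⟩
  have h1 := exec_compile (toFinTM2 p k₀ k₁).m h some .halt (fun l => rfl)
  rw [iterate_succ_apply]
  have e0 := initList_eq (toFinTM2 p k₀ k₁) inp
  have e1 := haltList_eq (toFinTM2 p k₀ k₁) out
  have e2 : Option.map (haltList (toFinTM2 p k₀ k₁)) (some out) = some _ := congrArg some e1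
  exact (congrArg (fun c => (flip bind (toFinTM2 p k₀ k₁).step)^[t]
    (flip bind (toFinTM2 p k₀ k₁).step (some c))) e0).trans (h1.trans e2.symm)

/-- Renaming of stacks. -/
def Prog.map {K' : Type} (φ : K → K') : Prog K Γ → Prog K' Γ
  | .skip => .skip
  | .push x γ => .push (φ x) γ
  | .pushv x d => .pushv (φ x) d
  | .pop x => .pop (φ x)
  | .popv x => .popv (φ x)
  | .seq p q => .seq (p.map φ) (q.map φ)
  | .ifv f p q => .ifv f (p.map φ) (q.map φ)
  | .whilePop x p => .whilePop (φ x) (p.map φ)

/-- A bound on the stacks used. -/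
def Prog.bound : Prog ℕ Γ → ℕ
  | .skip => 0
  | .push x _ => x
  | .pushv x _ => x
  | .pop x => x
  | .popv x => x
  | .seq p q => max p.bound q.bound
  | .ifv _ p q => max p.bound q.bound
  | .whilePop x p => max x p.bound

/-- Clamp to `Fin (N+1)`. -/
def clamp (N : ℕ) (x : ℕ) : Fin (N + 1) := ⟨min x N, by omega⟩

theorem update_clamp {N x : ℕ} (hx : x ≤ N) (S : ℕ → List Γ) (l : List Γ) :
    (fun j : Fin (N + 1) => update S x l j.val) =
      update (fun j : Fin (N + 1) => S j.val) (clamp N x) l := by
  funext j
  by_cases hj : j = clamp N x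
  · subst hj; simp [clamp, hx]
  · have : j.val ≠ x := by
      intro h; apply hj; ext; simp [clamp, hx, h]
    simp [hj, this]

theorem clamp_val {N x : ℕ} (hx : x ≤ N) : (clamp N x).val = x := by simp [clamp, hx]

theorem exec_clamp (N : ℕ) {p : Prog ℕ Γ} {v S t v' S'} (h : Exec p v S t v' S') :
    p.bound ≤ N → Exec (p.map (clamp N)) v (fun j => S j.val) t v' (fun j => S' j.val) := by
  induction h with
  | skip => intro _; exact Exec.skip
  | @push x γ v S =>
    intro hb
    replace hb : x ≤ N := hb
    rw [update_clamp hb]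
    have := @Exec.push _ Γ _ (clamp N x) γ v (fun j => S j.val)
    simpa only [clamp_val hb, Prog.map] using this
  | @pushv x d v S =>
    intro hb
    replace hb : x ≤ N := hb
    rw [update_clamp hb]
    have := @Exec.pushv _ Γ _ (clamp N x) d v (fun j => S j.val)
    simpa only [clamp_val hb, Prog.map] using this
  | @pop x v S =>
    intro hb
    replace hb : x ≤ N := hb
    rw [update_clamp hb]
    have := @Exec.pop _ Γ _ (clamp N x) v (fun j => S j.val)
    simpa only [clamp_val hb, Prog.map] using this
  | @popv x v S =>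
    intro hb
    replace hb : x ≤ N := hb
    rw [update_clamp hb]
    have := @Exec.popv _ Γ _ (clamp N x) v (fun j => S j.val)
    simpa only [clamp_val hb, Prog.map] using this
  | seq h1 h2 ih1 ih2 =>
    intro hb
    simp only [Prog.bound, max_le_iff] at hb
    exact Exec.seq (ih1 hb.1) (ih2 hb.2)
  | ifT hf h1 ih =>
    intro hb
    simp only [Prog.bound, max_le_iff] at hb
    exact Exec.ifT hf (ih hb.1)
  | ifF hf h1 ih =>
    intro hb
    simp only [Prog.bound, max_le_iff] at hb
    exact Exec.ifF hf (ih hb.2)
  | @whileNil x p v S hx =>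
    intro hb
    simp only [Prog.bound, max_le_iff] at hb
    exact Exec.whileNil (by simpa only [clamp_val hb.1] using hx)
  | @whileCons x p v S γ l t v1 S1 t' v2 S2 hx h1 h2 ih1 ih2 =>
    intro hb
    have hb' := hb
    simp only [Prog.bound, max_le_iff] at hb
    refine Exec.whileCons (γ := γ) (l := l) (by simpa only [clamp_val hb.1] using hx) ?_ (ih2 hb')
    rw [← update_clamp hb.1]
    exact ih1 hb.2

theorem Exec.cast [DecidableEq K] {p : Prog K Γ} {v S t v' S' S₁ S₁'} (h : Exec p v S t v' S')
    (h1 : S = S₁) (h2 : S' = S₁') : Exec p v S₁ t v' S₁' := h1 ▸ h2 ▸ h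

/-- Put a new stack below all others. -/
def scons (l : List Γ) (S : ℕ → List Γ) : ℕ → List Γ
  | 0 => l
  | n + 1 => S n

theorem update_scons_succ (l : List Γ) (S : ℕ → List Γ) (n : ℕ) (x : List Γ) :
    update (scons l S) (n + 1) x = scons l (update S n x) := by
  funext j
  rcases j with _ | j
  · simp [scons]
  · by_cases h : j = n
    · subst h; simp [scons]
    · simp [scons, h]

theorem update_scons_zero (l : List Γ) (S : ℕ → List Γ) (x : List Γ) :
    update (scons l S) 0 x = scons x S := by
  funext j
  rcases j with _ | j <;> simp [scons]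

theorem exec_shift (l : List Γ) {p : Prog ℕ Γ} {v S t v' S'} (h : Exec p v S t v' S') :
    Exec (p.map Nat.succ) v (scons l S) t v' (scons l S') := by
  induction h with
  | skip => exact Exec.skip
  | push => rw [← update_scons_succ]; exact Exec.push
  | pushv => rw [← update_scons_succ]; exact Exec.pushv
  | pop => rw [← update_scons_succ]; exact Exec.pop
  | popv => rw [← update_scons_succ]; exact Exec.popv
  | seq h1 h2 ih1 ih2 => exact Exec.seq ih1 ih2
  | ifT hf h1 ih => exact Exec.ifT hf ih
  | ifF hf h1 ih => exact Exec.ifF hf ih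
  | whileNil hx => exact Exec.whileNil hx
  | whileCons hx h1 h2 ih1 ih2 =>
    rw [← update_scons_succ] at ih1
    exact Exec.whileCons hx ih1 ih2

/-- The number of push instructions. -/
def Prog.size : Prog K Γ → ℕ
  | .skip => 0
  | .push _ _ => 1
  | .pushv _ _ => 1
  | .pop _ => 0
  | .popv _ => 0
  | .seq p q => p.size + q.size
  | .ifv _ p q => p.size + q.size
  | .whilePop _ p => p.size

theorem exec_length [DecidableEq K] {p : Prog K Γ} {v S t v' S'} (h : Exec p v S t v' S') (r : K) :
    (S' r).length ≤ (S r).length + p.size * (t + 1) := by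
  induction h with
  | skip => simp
  | @push x γ v S => by_cases hr : r = x <;> simp [hr, Prog.size]
  | @pushv x γ v S => by_cases hr : r = x <;> simp [hr, Prog.size]
  | @pop x v S => by_cases hr : r = x <;> simp [hr, Prog.size]
  | @popv x v S => by_cases hr : r = x <;> simp [hr, Prog.size]
  | seq h1 h2 ih1 ih2 => simp only [Prog.size]; nlinarith
  | ifT hf h1 ih => simp only [Prog.size]; nlinarith
  | ifF hf h1 ih => simp only [Prog.size]; nlinarith
  | whileNil hx => simp
  | @whileCons x p v S γ l t v1 S1 t' v2 S2 hx h1 h2 ih1 ih2 =>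
    have : (update S x l r).length ≤ (S r).length := by
      by_cases hr : r = x
      · subst hr; simp [hx]
      · simp [hr]
    simp only [Prog.size] at *
    nlinarith

end Vale.Agent.Lib.H24.T
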